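import Vale.Agent.P193.H870.Family
import Vale.Agent.P193.Bdl.B2

/-!
The exact characterisation, for uniformly computable families of countable groups.
-/

namespace Vale.Agent.P193.H870

open Vale.Agent.P193.BH

universe u

/-! ### computability of substitutions -/

theorem computable_flatMap {α β σ : Type*} [Primcodable α] [Primcodable β] [Primcodable σ]
    (d : β) {f : α → List β} {g : α → β → List σ} (hf : Computable f) (hg : Computable₂ g) :
    Computable fun a => (f a).flatMap (g a) := by
  have h1 : Computable fun a =>
      (Nat.rec [] (fun k r => r ++ g a ((f a).getD k d)) (f a).length : List σ) := by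
    refine Computable.nat_rec (h := fun (a : α) (kr : ℕ × List σ) =>
      kr.2 ++ g a ((f a).getD kr.1 d)) (Primrec.list_length.to_comp.comp hf)
      (Computable.const []) ?_
    refine Primrec.list_append.to_comp.comp (Computable.snd.comp Computable.snd) ?_
    refine hg.comp Computable.fst ?_
    exact ((Primrec.list_getD d).to_comp).comp (hf.comp Computable.fst)
      (Computable.fst.comp Computable.snd)
  refine h1.of_eq fun a => ?_
  have key : ∀ n ≤ (f a).length, (Nat.rec [] (fun k r => r ++ g a ((f a).getD k d)) n : List σ) =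
      ((f a).take n).flatMap (g a) := by
    intro n
    induction n with
    | zero => intro _; simp
    | succ n ih =>
      intro hn
      have h2 : (Nat.rec [] (fun k r => r ++ g a ((f a).getD k d)) (n + 1) : List σ) =
          (Nat.rec [] (fun k r => r ++ g a ((f a).getD k d)) n : List σ) ++
            g a ((f a).getD n d) := rfl
      rw [h2, ih (by omega), List.take_succ_eq_append_getElem (by omega), List.flatMap_append,
        List.getD_eq_getElem _ _ (by omega)]
      simp
  rw [key _ le_rfl, List.take_length]

theorem primrec_invRev' {β : Type*} [Primcodable β] :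
    Primrec (FreeGroup.invRev : List (β × Bool) → List (β × Bool)) := by
  unfold FreeGroup.invRev
  refine Primrec.list_reverse.comp (Primrec.list_map Primrec.id ?_)
  apply Primrec₂.mk
  exact Primrec.pair (Primrec.fst.comp Primrec.snd) (Primrec.not.comp (Primrec.snd.comp Primrec.snd))

/-- substitution is computable, jointly in a parameter -/
theorem computable_subst {α β γ : Type*} [Primcodable α] [Primcodable β] [Primcodable γ] (d : α)
    {W : γ → α → List (β × Bool)} (hW : Computable₂ W) {u : γ → List (α × Bool)}
    (hu : Computable u) : Computable fun c => subst (W c) (u c) := by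
  unfold subst
  refine computable_flatMap (d, true) hu ?_
  have hb : Computable fun x : γ × α × Bool => x.2.2 := Computable.snd.comp Computable.snd
  have hw : Computable fun x : γ × α × Bool => W x.1 x.2.1 :=
    hW.comp Computable.fst (Computable.fst.comp Computable.snd)
  exact Computable.cond hb hw (primrec_invRev'.to_comp.comp hw)

/-! ### Kuznetsov's theorem -/

theorem kuznetsov (P : Presentation) (hP : IsSimpleGroup (PGroup P)) :
    ComputablePred fun w : Wd => Vale.Agent.P193.ev P w = 1 := by
  have h2 : IsSigma2 {P} := by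
    refine ⟨fun q => q.1 = P, ?_, fun Q => ?_⟩
    · exact (PrimrecRel.comp Primrec.eq Primrec.fst (Primrec.const P)).computablePred
    · simp
  obtain ⟨T, hT, hT'⟩ := exists_alg (S := {P}) (fun Q hQ => by rw [Set.mem_singleton_iff.1 hQ]; exact hP) h2
  obtain ⟨x, j, h3⟩ := hT' P rfl
  rw [ComputablePred.computable_iff]
  refine ⟨fun w => T ((P, x, j), w), hT.comp (Computable.pair (Computable.const _)
    Computable.id), ?_⟩
  funext w
  exact propext (h3 w).symm

theorem ev_eq_lift (P : Presentation) (w : Wd) : Vale.Agent.P193.ev P w =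
    FreeGroup.lift (fun j => Vale.Agent.P193.ev P (genW j)) (FreeGroup.mk w) := by
  induction w with
  | nil =>
    rw [Vale.Agent.P193.ev_nil]
    exact (map_one (FreeGroup.lift _)).symm
  | cons a w ih =>
    obtain ⟨j, b⟩ := a
    have h1 : (j, b) :: w = [(j, b)] ++ w := rfl
    rw [lift_cons, ← ih, h1, Vale.Agent.P193.ev_append]
    congr 1
    cases b
    · have h3 : ([(j, false)] : Wd) = FreeGroup.invRev (genW j) := rfl
      rw [h3, Vale.Agent.P193.ev_invRev]
      rfl
    · rfl

/-- In a group that embeds in a finitely presented simple group, the word problem with respect to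
every finite tuple is decidable. -/
theorem converse {n : ℕ} {G : Type u} [Group G] (f : Fin n → G) (K : Type) [Group K]
    (hK : IsSimpleGroup K) (hKp : Group.IsFinitelyPresented K) (ψ : G →* K)
    (hψ : Function.Injective ψ) :
    ComputablePred fun w : List (Fin n × Bool) => FreeGroup.lift f (FreeGroup.mk w) = 1 := by
  obtain ⟨P, ⟨e⟩⟩ := exists_code K hKp
  have hP : IsSimpleGroup (PGroup P) := simple_of_equiv e hK
  have hv : ∀ i, ∃ v : Wd, Vale.Agent.P193.ev P v = e (ψ (f i)) := fun i => ev_surj P _
  choose v hv using hv
  have hs : Primrec fun w : List (Fin n × Bool) => subst v w := by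
    unfold subst
    refine Primrec.list_flatMap Primrec.id ?_
    apply Primrec₂.mk
    exact ((Primrec.dom_finite fun a : Fin n × Bool =>
      cond a.2 (v a.1) (FreeGroup.invRev (v a.1))).comp Primrec.snd)
  refine (CI.pcomp (kuznetsov P hP) hs.to_comp).of_eq fun w => ?_
  rw [ev_eq_lift, lift_subst]
  have h1 : (fun i => FreeGroup.lift (fun j => Vale.Agent.P193.ev P (genW j))
      (FreeGroup.mk (v i))) = fun i => e (ψ (f i)) := by
    funext i
    rw [← ev_eq_lift, hv]
  rw [h1]
  have h2 : (FreeGroup.lift fun i => e (ψ (f i))) = (e.toMonoidHom.comp ψ).comp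
      (FreeGroup.lift f) := by
    refine FreeGroup.ext_hom _ _ fun i => ?_
    simp
  rw [h2]
  show e (ψ (FreeGroup.lift f (FreeGroup.mk w))) = 1 ↔ _
  rw [map_eq_one_iff e e.injective, map_eq_one_iff ψ hψ]

/-! ### the characterisation -/

variable {G : ℕ → Type u} [∀ i, Group (G i)]

theorem family_iff (f : ∀ i, ℕ → G i) (hf : ∀ i, Subgroup.closure (Set.range (f i)) = ⊤) :
    (ComputablePred fun x : ℕ × List (ℕ × Bool) =>
      FreeGroup.lift (f x.1) (FreeGroup.mk x.2) = 1) ↔
    ∃ (K : Type) (_ : Group K) (m : ℕ) (k : Fin m → K) (W : ℕ → ℕ → List (Fin m × Bool))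
      (ψ : ∀ i, G i →* K), IsSimpleGroup K ∧ Group.IsFinitelyPresented K ∧
        Subgroup.closure (Set.range k) = ⊤ ∧ Computable₂ W ∧
        ∀ i, Function.Injective (ψ i) ∧
          ∀ j, ψ i (f i j) = FreeGroup.lift k (FreeGroup.mk (W i j)) := by
  constructor
  · intro hdec
    obtain ⟨P, _, p, hp1, hp2, φ, hφ, hφ'⟩ := family_three f hf hdec
    obtain ⟨K, iK, hK1, hK2, χ, hχ⟩ := booneHigman p hp1 hp2
    obtain ⟨Q, ⟨e⟩⟩ := exists_code K hK2
    let k : Fin Q.1 → K := fun j => e.symm (PresentedGroup.of j)
    have hk : Subgroup.closure (Set.range k) = ⊤ := by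
      have h1 : Set.range k = e.symm.toMonoidHom '' (Set.range (PresentedGroup.of
          (rels := relators Q))) := by
        rw [← Set.range_comp]
        rfl
      rw [h1, ← MonoidHom.map_closure, PresentedGroup.closure_range_of,
        ← MonoidHom.range_eq_map, MonoidHom.range_eq_top]
      exact e.symm.surjective
    have hv : ∀ a : Fin 3, ∃ v : List (Fin Q.1 × Bool),
        FreeGroup.lift k (FreeGroup.mk v) = χ (p a) := by
      intro a
      have h1 : χ (p a) ∈ (FreeGroup.lift k).range := by
        rw [FreeGroup.range_lift_eq_closure, hk]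
        trivial
      obtain ⟨x, hx⟩ := h1
      refine ⟨x.toWord, ?_⟩
      rw [FreeGroup.mk_toWord]
      exact hx
    choose v hv using hv
    refine ⟨K, iK, Q.1, k, fun i j => subst v (wf i j), fun i => χ.comp (φ i), hK1, hK2, hk, ?_,
      fun i => ⟨hχ.comp (hφ i), fun j => ?_⟩⟩
    · apply Computable₂.mk
      have hs : Primrec fun w : List (Fin 3 × Bool) => subst v w := by
        unfold subst
        refine Primrec.list_flatMap Primrec.id ?_
        apply Primrec₂.mk
        exact ((Primrec.dom_finite fun a : Fin 3 × Bool =>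
          cond a.2 (v a.1) (FreeGroup.invRev (v a.1))).comp Primrec.snd)
      exact (hs.comp (primrec_wf.comp Primrec.fst Primrec.snd)).to_comp
    · rw [MonoidHom.comp_apply, hφ', lift_subst]
      have h1 : (fun a => FreeGroup.lift k (FreeGroup.mk (v a))) = fun a => χ (p a) := by
        funext a
        rw [hv]
      rw [h1]
      have h2 : (FreeGroup.lift fun a => χ (p a)) = χ.comp (FreeGroup.lift p) := by
        refine FreeGroup.ext_hom _ _ fun i => ?_
        simp
      rw [h2]
      rfl
  · rintro ⟨K, iK, m, k, W, ψ, hK1, hK2, -, hW, hψ⟩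
    have h1 := converse k K hK1 hK2 (MonoidHom.id K) (fun _ _ h => h)
    have h2 : Computable fun x : ℕ × List (ℕ × Bool) => subst (W x.1) x.2 :=
      computable_subst 0 (W := fun (x : ℕ × List (ℕ × Bool)) j => W x.1 j)
        (hW.comp (Computable.fst.comp Computable.fst) Computable.snd) Computable.snd
    refine (CI.pcomp h1 h2).of_eq fun x => ?_
    obtain ⟨i, w⟩ := x
    show FreeGroup.lift k (FreeGroup.mk (subst (W i) w)) = 1 ↔
      FreeGroup.lift (f i) (FreeGroup.mk w) = 1
    rw [lift_subst]
    have h3 : (fun j => FreeGroup.lift k (FreeGroup.mk (W i j))) = fun j => ψ i (f i j) := by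
      funext j
      rw [(hψ i).2 j]
    rw [h3]
    have h4 : (FreeGroup.lift fun j => ψ i (f i j)) = (ψ i).comp (FreeGroup.lift (f i)) := by
      refine FreeGroup.ext_hom _ _ fun j => ?_
      simp
    rw [h4]
    show ψ i (FreeGroup.lift (f i) (FreeGroup.mk w)) = 1 ↔ _
    rw [map_eq_one_iff (ψ i) (hψ i).1]

end Vale.Agent.P193.H870
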