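import Vale.Agent.P193.Bdl.B1

/-!
Presentations with a bounded number of generators and relators: groups.
-/

namespace Vale.Agent.P193.H870

/-- `K` has a presentation with at most `N` generators and at most `N` relators -/
def GPB (N : ℕ) (K : Type*) [Group K] : Prop :=
  ∃ (α : Type) (_ : Finite α) (π : FreeGroup α →* K) (s : Set (FreeGroup α)),
    Function.Surjective π ∧ s.Finite ∧ π.ker = Subgroup.normalClosure s ∧
      Nat.card α ≤ N ∧ s.ncard ≤ N

theorem ncard_range_le {α β : Type*} [Finite α] (f : α → β) :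
    (Set.range f).ncard ≤ Nat.card α := by
  rw [← Set.image_univ]
  refine (Set.ncard_image_le Set.finite_univ).trans ?_
  rw [Set.ncard_univ]

theorem map_ker_normalClosure {F P : Type*} [Group F] [Group P] (π : F →* P)
    (hπ : Function.Surjective π) (s : Set F) (hs : π.ker = Subgroup.normalClosure s)
    {κ : Type*} (t : κ → P) :
    ∃ t' : κ → F, (Subgroup.normalClosure (Set.range t)).comap π =
      Subgroup.normalClosure (s ∪ Set.range t') := by
  choose t' ht' using fun k => hπ (t k)
  refine ⟨t', ?_⟩
  have h1 : (Subgroup.normalClosure (s ∪ Set.range t')).map π =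
      Subgroup.normalClosure (Set.range t) := by
    rw [Subgroup.map_normalClosure _ _ hπ, Set.image_union]
    apply le_antisymm
    · apply Subgroup.normalClosure_le_normal
      rintro x (⟨y, hy, rfl⟩ | ⟨_, ⟨k, rfl⟩, rfl⟩)
      · have h2 : y ∈ π.ker := by rw [hs]; exact Subgroup.subset_normalClosure hy
        rw [MonoidHom.mem_ker] at h2
        rw [SetLike.mem_coe, h2]
        exact one_mem _
      · exact Subgroup.subset_normalClosure ⟨k, (ht' k).symm⟩
    · apply Subgroup.normalClosure_mono
      rintro _ ⟨k, rfl⟩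
      exact Or.inr ⟨t' k, ⟨k, rfl⟩, ht' k⟩
  rw [← h1, Subgroup.comap_map_eq, sup_eq_left, hs]
  exact Subgroup.normalClosure_mono Set.subset_union_left

theorem GPB.of_ker {α : Type} [Finite α] {P Q : Type*} [Group P] [Group Q]
    (π : FreeGroup α →* P) (hπ : Function.Surjective π) (s : Set (FreeGroup α)) (hsf : s.Finite)
    (hs : π.ker = Subgroup.normalClosure s) (θ : P →* Q) (hθ : Function.Surjective θ)
    {κ : Type*} [Finite κ] (t : κ → P) (ht : θ.ker = Subgroup.normalClosure (Set.range t))
    (N : ℕ) (h1 : Nat.card α ≤ N) (h2 : s.ncard + Nat.card κ ≤ N) : GPB N Q := by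
  obtain ⟨t', ht'⟩ := map_ker_normalClosure π hπ s hs t
  refine ⟨α, inferInstance, θ.comp π, s ∪ Set.range t', hθ.comp hπ,
    hsf.union (Set.finite_range _), ?_, h1, ?_⟩
  · rw [← ht', ← ht, MonoidHom.comap_ker]
  · refine (Set.ncard_union_le _ _).trans ?_
    have := ncard_range_le t'
    omega

theorem GPB.equiv {N : ℕ} {K K' : Type*} [Group K] [Group K'] (e : K ≃* K') (h : GPB N K) :
    GPB N K' := by
  obtain ⟨α, hα, π, s, h1, h2, h3, h4, h5⟩ := h
  refine ⟨α, hα, e.toMonoidHom.comp π, s, e.surjective.comp h1, h2, ?_, h4, h5⟩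
  rw [← h3]
  ext x
  simp [MonoidHom.mem_ker]

/-- a bounded presentation can be brought to a standard form -/
theorem GPB.exists_relators {N : ℕ} {K : Type*} [Group K] (h : GPB N K) :
    ∃ r : Fin (2 * N + 1) → FreeGroup (Fin N),
      Nonempty (K ≃* PresentedGroup (Set.range r)) := by
  classical
  obtain ⟨α, hα, π, s, h1, h2, h3, h4, h5⟩ := h
  have := Fintype.ofFinite α
  obtain ⟨emb⟩ : Nonempty (α ↪ Fin N) := by
    rw [Function.Embedding.nonempty_iff_card_le, Fintype.card_fin, ← Nat.card_eq_fintype_card]
    exact h4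
  let ρ : FreeGroup (Fin N) →* FreeGroup α := FreeGroup.lift fun i =>
    if h : ∃ x, emb x = i then FreeGroup.of h.choose else 1
  let j : FreeGroup α →* FreeGroup (Fin N) := FreeGroup.map emb
  have hρe : ∀ x, ρ (FreeGroup.of (emb x)) = FreeGroup.of x := by
    intro x
    have hex : ∃ y, emb y = emb x := ⟨x, rfl⟩
    simp only [ρ, FreeGroup.lift_apply_of]
    rw [dif_pos hex]
    congr 1
    exact emb.injective hex.choose_spec
  have hρn : ∀ i, (¬ ∃ x, emb x = i) → ρ (FreeGroup.of i) = 1 := by
    intro i hi
    simp only [ρ, FreeGroup.lift_apply_of]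
    rw [dif_neg hi]
  have hρj : ∀ x, ρ (j x) = x := by
    intro x
    have : ρ.comp j = MonoidHom.id _ := by
      refine FreeGroup.ext_hom _ _ fun x => ?_
      simp only [MonoidHom.comp_apply, j, FreeGroup.map.of, hρe, MonoidHom.id_apply]
    exact DFunLike.congr_fun this x
  let E : Set (Fin N) := {i | ¬ ∃ x, emb x = i}
  let S : Set (FreeGroup (Fin N)) := insert 1 (j '' s ∪ FreeGroup.of '' E)
  have hSf : S.Finite := ((h2.image _).union ((Set.toFinite E).image _)).insert 1
  have hSn : S.ncard ≤ 2 * N + 1 := by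
    refine (Set.ncard_insert_le _ _).trans ?_
    have a1 := Set.ncard_union_le (j '' s) (FreeGroup.of '' E)
    have a2 := Set.ncard_image_le (f := j) h2
    have a3 := Set.ncard_image_le (f := (FreeGroup.of : Fin N → FreeGroup (Fin N)))
      (Set.toFinite E)
    have a4 : E.ncard ≤ N := by
      have := Set.ncard_le_ncard (Set.subset_univ E)
      rwa [Set.ncard_univ, Nat.card_eq_fintype_card, Fintype.card_fin] at this
    omega
  -- the kernel
  have hker : (π.comp ρ).ker = Subgroup.normalClosure S := by
    apply le_antisymm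
    · intro x hx
      have hx1 : ρ x ∈ Subgroup.normalClosure s := by
        rw [← h3, MonoidHom.mem_ker]
        exact hx
      have hx2 : j (ρ x) ∈ Subgroup.normalClosure S := by
        have hle : Subgroup.normalClosure s ≤ (Subgroup.normalClosure S).comap j := by
          apply Subgroup.normalClosure_le_normal
          intro y hy
          exact Subgroup.subset_normalClosure (Or.inr (Or.inl ⟨y, hy, rfl⟩))
        exact hle hx1
      let q : FreeGroup (Fin N) →* FreeGroup (Fin N) ⧸ Subgroup.normalClosure S :=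
        QuotientGroup.mk' _
      have hq : q.comp (j.comp ρ) = q := by
        refine FreeGroup.ext_hom _ _ fun i => ?_
        by_cases hi : ∃ x, emb x = i
        · obtain ⟨x, rfl⟩ := hi
          simp only [MonoidHom.comp_apply, hρe, j, FreeGroup.map.of]
        · simp only [MonoidHom.comp_apply, hρn i hi, map_one]
          symm
          exact (QuotientGroup.eq_one_iff _).2
            (Subgroup.subset_normalClosure (Or.inr (Or.inr ⟨i, hi, rfl⟩)))
      have hq1 : q x = 1 := by
        rw [← hq]
        show q (j (ρ x)) = 1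
        exact (QuotientGroup.eq_one_iff _).2 hx2
      exact (QuotientGroup.eq_one_iff _).1 hq1
    · apply Subgroup.normalClosure_le_normal
      rintro x (rfl | ⟨y, hy, rfl⟩ | ⟨i, hi, rfl⟩)
      · exact one_mem _
      · show π (ρ (j y)) = 1
        rw [hρj, ← MonoidHom.mem_ker, h3]
        exact Subgroup.subset_normalClosure hy
      · show π (ρ (FreeGroup.of i)) = 1
        rw [hρn i hi, map_one]
  -- enumeration of the relators
  obtain ⟨r, hr⟩ : ∃ r : Fin (2 * N + 1) → FreeGroup (Fin N), Set.range r = S := by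
    have hfin := hSf.fintype
    have hcard : Fintype.card S ≤ Fintype.card (Fin (2 * N + 1)) := by
      rw [Fintype.card_fin, ← Nat.card_eq_fintype_card, Nat.card_coe_set_eq]
      exact hSn
    obtain ⟨e⟩ : Nonempty (S ↪ Fin (2 * N + 1)) := Function.Embedding.nonempty_iff_card_le.2 hcard
    have : Nonempty S := ⟨⟨1, Or.inl rfl⟩⟩
    refine ⟨fun i => (Function.invFun e i : S), ?_⟩
    ext x
    constructor
    · rintro ⟨i, rfl⟩
      exact (Function.invFun e i : S).2
    · intro hx
      exact ⟨e ⟨x, hx⟩, by
        show ((Function.invFun e (e ⟨x, hx⟩) : S) : FreeGroup (Fin N)) = x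
        rw [Function.leftInverse_invFun e.injective]⟩
  refine ⟨r, ⟨?_⟩⟩
  have hsurj : Function.Surjective (π.comp ρ) := fun g => by
    obtain ⟨x, rfl⟩ := h1 g
    exact ⟨j x, by rw [MonoidHom.comp_apply, hρj]⟩
  have e1 : (FreeGroup (Fin N) ⧸ (π.comp ρ).ker) ≃* K :=
    QuotientGroup.quotientKerEquivOfSurjective _ hsurj
  exact e1.symm.trans (QuotientGroup.quotientMulEquivOfEq (by rw [hker, hr]))

end Vale.Agent.P193.H870
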