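import Vale.Agent.P193.H870.BddTen
import Vale.Agent.P193.Bdl.B3

/-!
Presentations with a bounded number of generators and relations: the machine ring, and the
embedding theorem with absolute bounds.
-/

namespace Vale.Agent.P193.H870

open Vale.Agent.P193 Vale.Agent.P193.BH TensorProduct

open Turing.PartrecToTM2 (Γ' K' trNat trList)
open Nat.Partrec (Code)

universe u

/-- The existence of the machine, with finite types of letters and a number of rules which do not
depend on the group (the argument of `exists_machine`). -/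
theorem exists_machine_bdd (n : ℕ) :
    ∃ (T Q : Type) (_ : Finite T) (_ : Finite Q) (B : ℕ), ∀ (G : Type u) [Group G]
      (f : Fin n → G), (ComputablePred fun w : List (Fin n × Bool) => BH.ev f w = 1) →
      ∃ (M : Machine T Q n) (tgt : ℕ → Option (List (Letter T Q n))),
        RunProp M f tgt ∧ {r | r ∈ M.rules}.ncard ≤ B := by
  obtain ⟨S, hS, E, hE1, hE2⟩ := exists_EM
  obtain ⟨L, ⟨e⟩⟩ := Finite.exists_equiv_fin (LL S n)
  refine ⟨TT, QQ S, inferInstance, inferInstance, Nat.card (RI S n), ?_⟩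
  intro G _ f hdec
  let _ : Primcodable (LL S n) := Primcodable.ofEquiv (Fin L) e
  obtain ⟨p, hp, hirr⟩ := irr_computable f hdec E e
  obtain ⟨g, hg, hgw⟩ := ComputablePred.computable_iff.1 hdec
  have hgw' : ∀ c, BH.ev f c = 1 ↔ g c = true := fun c => by
    have := congrFun hgw c
    simpa using this
  obtain ⟨c, hc⟩ := exists_fix e p hp g hg
  obtain ⟨M, hM1, hM2, hM3⟩ := exists_mach E e (NN c) (progW c) (progW_length c)
  have hirr' : ∀ w, Irr M f w ↔ p (NN c) w = true := hirr _ _ M hM1 hM2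
  -- the code of the program
  have hcode : ∀ μ : Bool, Denumerable.ofNat Code (Encodable.encode (c.curry (cond μ 1 0))) =
      c.curry (cond μ 1 0) := fun μ => Denumerable.ofNat_encode _
  have hA : ∀ (μ : Bool) (l : List Bool) (w : List (LL S n)),
      outFn p g (NN c) μ (val l - 1) = some w →
      ∃ t s, E.iter t (E.init, stOf [Encodable.encode (c.curry (cond μ 1 0)), val l]) =
        some (s, stOf [encW e (NN c) w]) ∧ E.δ s = none := by
    intro μ l w h
    apply hE1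
    rw [hcode, hc]
    exact ⟨w, h, rfl⟩
  have hB : ∀ (μ : Bool) (l : List Bool) t s T,
      E.iter t (E.init, stOf [Encodable.encode (c.curry (cond μ 1 0)), val l]) = some (s, T) →
      E.δ s = none →
      ∃ w, outFn p g (NN c) μ (val l - 1) = some w ∧ T = stOf [encW e (NN c) w] := by
    intro μ l t s T h1 h2
    obtain ⟨r, hr, hT⟩ := hE2 _ _ _ _ _ h1 h2
    rw [hcode, hc] at hr
    obtain ⟨w, hw, rfl⟩ := hr
    exact ⟨w, hw, hT⟩
  have hRH : ∀ (N : Type) [Ring N] (ρ : LL S n → N), M.Resp ρ → RH E e (NN c) (progW c) M ρ :=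
    fun N _ ρ h => ⟨hM1, hM2, h⟩
  have hrun : ∀ (μ : Bool) (y : List (Fin 3)),
      (∀ (N : Type) [Ring N] (ρ : LL S n → N), M.Resp ρ →
        pr ρ (stW S n μ) * pr ρ (fw n S y) * ρ (.s .bot) = if μ then ρ .qh else 0) ∨
      (y ≠ [] ∧ ∃ (m : ℕ) (w : List (LL S n)), outFn p g (NN c) μ m = some w ∧
        ∀ (N : Type) [Ring N] (ρ : LL S n → N), M.Resp ρ →
        pr ρ (stW S n μ) * pr ρ (fw n S y) * ρ (.s .bot) = pr ρ w * ρ .qh) := by
    intro μ y
    rcases dig_split y with ⟨l, rfl⟩ | ⟨l, y', rfl⟩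
    · left
      intro N _ ρ hρ
      exact run_digits (hRH N ρ hρ) μ l
    · by_cases hh : ∃ t s T, E.iter t (E.init,
          stOf [Encodable.encode (c.curry (cond μ 1 0)), val l]) = some (s, T) ∧
          E.δ s = none ∧ t < y'.length
      · obtain ⟨t, s, T, h1, h2, h3⟩ := hh
        obtain ⟨w, hw, rfl⟩ := hB μ l t s T h1 h2
        right
        refine ⟨by simp, _, w, hw, ?_⟩
        intro N _ ρ hρ
        rw [run_sep (hRH N ρ hρ) μ _ rfl l y']
        exact run_halt (hRH N ρ hρ) μ t _ s w h1 h2 y' h3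
      · left
        intro N _ ρ hρ
        rw [run_sep (hRH N ρ hρ) μ _ rfl l y']
        refine run_out (hRH N ρ hρ) μ (E.init, stOf [Encodable.encode (c.curry (cond μ 1 0)),
          val l]) y' ?_
        intro t s T h1 h2
        by_contra hlt
        exact hh ⟨t, s, T, h1, h2, by omega⟩
  have hsurj : ∀ (μ : Bool) (m : ℕ) (w : List (LL S n)), outFn p g (NN c) μ m = some w →
      ∃ y : List (Fin 3), ∀ (N : Type) [Ring N] (ρ : LL S n → N), M.Resp ρ →
        pr ρ (stW S n μ) * pr ρ (fw n S y) * ρ (.s .bot) = pr ρ w * ρ .qh := by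
    intro μ m w h
    obtain ⟨l, hl⟩ := exists_val (Nat.succ_ne_zero m)
    have h' : outFn p g (NN c) μ (val l - 1) = some w := by rw [hl]; exact h
    obtain ⟨t, s, h1, h2⟩ := hA μ l w h'
    refine ⟨dig l ++ 0 :: List.replicate (t + 1) 0, ?_⟩
    intro N _ ρ hρ
    rw [run_sep (hRH N ρ hρ) μ _ rfl l _]
    exact run_halt (hRH N ρ hρ) μ t _ s w h1 h2 _ (by simp)
  have hB' : {r | r ∈ M.rules}.ncard ≤ Nat.card (RI S n) := by
    have h1 : {r | r ∈ M.rules} = Set.range (ruleOf E e (NN c) (progW c)) := by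
      ext r
      exact hM2 r
    rw [h1]
    exact ncard_range_le _
  refine ⟨M, tgtF, ?_, hB'⟩
  constructor
  · exact tgtF_surj
  · intro y
    rw [hM3]
    rcases hrun true y with h | ⟨hy, m, w, hw, h⟩
    · refine ⟨[], Or.inl rfl, fun _ => rfl, ?_⟩
      intro N _ ρ hρ
      have := h N ρ hρ
      simp only [if_true] at this
      simp only [fw] at this
      rw [this]
      simp [pr]
    · exact ⟨w, Or.inr (outFn_true hgw' hirr' hw), fun h0 => absurd h0 hy, h⟩
  · intro y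
    rw [hM3]
    rcases hrun false y with h | ⟨hy, m, w, hw, h⟩
    · left
      intro N _ ρ hρ
      have := h N ρ hρ
      simpa only [fw, Bool.false_eq_true, ↓reduceIte] using this
    · exact Or.inr ⟨hy, w, outFn_false hirr' hw, h⟩
  · intro out hout
    rw [hM3]
    obtain ⟨m, hm⟩ := exists_outFn_true hgw' hirr' hout
    exact hsurj true m out hm
  · intro out hout
    rw [hM3]
    obtain ⟨m, hm⟩ := exists_outFn_false (g := g) hirr' hout
    exact hsurj false m out hm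

theorem fpb_ringQuot (ι : Type) [Finite ι]
    (r : FreeAlgebra (ZMod 2) ι → FreeAlgebra (ZMod 2) ι → Prop)
    (hr : {p : FreeAlgebra (ZMod 2) ι × FreeAlgebra (ZMod 2) ι | r p.1 p.2}.Finite) (N : ℕ)
    (h1 : Nat.card ι ≤ N)
    (h2 : {p : FreeAlgebra (ZMod 2) ι × FreeAlgebra (ZMod 2) ι | r p.1 p.2}.ncard ≤ N) :
    FPB N (RingQuot r) := by
  have hsub : {z | ∃ a b, r a b ∧ z = a - b} ⊆ (fun p : FreeAlgebra (ZMod 2) ι ×
      FreeAlgebra (ZMod 2) ι => p.1 - p.2) '' {p | r p.1 p.2} := by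
    rintro z ⟨a, b, hab, rfl⟩
    exact ⟨(a, b), hab, rfl⟩
  refine ⟨ι, inferInstance, RingQuot.mkAlgHom (ZMod 2) r, {z | ∃ a b, r a b ∧ z = a - b},
    RingQuot.mkAlgHom_surjective (ZMod 2) r, (hr.image _).subset hsub,
    fun x => ringQuot_mk_eq_zero_iff ι r x, h1, ?_⟩
  exact (Set.ncard_le_ncard hsub (hr.image _)).trans ((Set.ncard_image_le hr).trans h2)

/-- the bound for the machine ring -/
noncomputable def mb (T Q : Type) (n B : ℕ) : ℕ :=
  Nat.card (Letter T Q n) + (Nat.card (SL T × SL T) + (B + (6 + (2 + (3 + 2)))))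

theorem mrel_ncard {T Q : Type} {n : ℕ} [Finite T] [Finite Q] (M : Machine T Q n) (B : ℕ)
    (hB : {r | r ∈ M.rules}.ncard ≤ B) :
    {p : FreeAlgebra (ZMod 2) (Letter T Q n) × FreeAlgebra (ZMod 2) (Letter T Q n) |
      MRel M p.1 p.2}.ncard ≤ Nat.card (SL T × SL T) + (B + (6 + (2 + (3 + 2)))) := by
  have f0 : {r | r ∈ M.rules}.Finite := List.finite_toSet M.rules
  have h1 := ncard_range_le fun z : SL T × SL T =>
      ((FreeAlgebra.ι (ZMod 2) (Letter.s z.1 : Letter T Q n) *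
        FreeAlgebra.ι (ZMod 2) (Letter.s z.2)),
      (FreeAlgebra.ι (ZMod 2) (Letter.s z.2 : Letter T Q n) *
        FreeAlgebra.ι (ZMod 2) (Letter.s z.1)))
  have h2 := (Set.ncard_image_le (f := fun z : Q × List (SL T) × Option (List (Letter T Q n)) =>
      ((FreeAlgebra.ι (ZMod 2) (.q z.1 : Letter T Q n) *
        pr (FreeAlgebra.ι (ZMod 2)) (z.2.1.map .s)),
      (z.2.2.elim 0 (pr (FreeAlgebra.ι (ZMod 2)))))) f0).trans hB
  have h3 := ncard_range_le fun z : Bool × Fin 3 =>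
      ((FreeAlgebra.ι (ZMod 2) (Letter.q0 z.1 : Letter T Q n) *
        FreeAlgebra.ι (ZMod 2) (Letter.s (.i0 z.2))),
      (FreeAlgebra.ι (ZMod 2) (Letter.q0 z.1 : Letter T Q n) *
        FreeAlgebra.ι (ZMod 2) (Letter.s (.i1 z.2))))
  have h4 := ncard_range_le fun z : Bool =>
      ((FreeAlgebra.ι (ZMod 2) (Letter.q0 z : Letter T Q n) *
        FreeAlgebra.ι (ZMod 2) (Letter.s .B)),
      pr (FreeAlgebra.ι (ZMod 2)) (M.st z))
  have h5 := ncard_range_le fun z : Fin 3 =>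
      ((FreeAlgebra.ι (ZMod 2) (Letter.s (.i0 z) : Letter T Q n) *
        (FreeAlgebra.ι (ZMod 2) (Letter.s .B) * FreeAlgebra.ι (ZMod 2) .E)),
      (FreeAlgebra.ι (ZMod 2) (Letter.s .B : Letter T Q n) *
        FreeAlgebra.ι (ZMod 2) .E))
  have h6 := Set.ncard_insert_le ((FreeAlgebra.ι (ZMod 2) (Letter.s .bot : Letter T Q n) *
      FreeAlgebra.ι (ZMod 2) .E), FreeAlgebra.ι (ZMod 2) (.E : Letter T Q n))
      ({(FreeAlgebra.ι (ZMod 2) (.qh : Letter T Q n) * FreeAlgebra.ι (ZMod 2) .E, 1)} :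
      Set (FreeAlgebra (ZMod 2) (Letter T Q n) × FreeAlgebra (ZMod 2) (Letter T Q n)))
  rw [Set.ncard_singleton] at h6
  have e3 : Nat.card (Bool × Fin 3) = 6 := by
    rw [Nat.card_prod, Nat.card_eq_fintype_card, Nat.card_eq_fintype_card, Fintype.card_bool,
      Fintype.card_fin]
  have e4 : Nat.card Bool = 2 := by rw [Nat.card_eq_fintype_card, Fintype.card_bool]
  have e5 : Nat.card (Fin 3) = 3 := by rw [Nat.card_eq_fintype_card, Fintype.card_fin]
  rw [e3] at h3
  rw [e4] at h4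
  rw [e5] at h5
  have hfin : ∀ {α β : Type} [Finite α] (g : α → β), (Set.range g).Finite := fun g =>
    Set.finite_range g
  refine (Set.ncard_le_ncard (t := (Set.range fun z : SL T × SL T =>
      ((FreeAlgebra.ι (ZMod 2) (Letter.s z.1 : Letter T Q n) *
        FreeAlgebra.ι (ZMod 2) (Letter.s z.2)),
      (FreeAlgebra.ι (ZMod 2) (Letter.s z.2 : Letter T Q n) *
        FreeAlgebra.ι (ZMod 2) (Letter.s z.1)))) ∪
      ((fun z : Q × List (SL T) × Option (List (Letter T Q n)) =>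
      ((FreeAlgebra.ι (ZMod 2) (.q z.1 : Letter T Q n) *
        pr (FreeAlgebra.ι (ZMod 2)) (z.2.1.map .s)),
      (z.2.2.elim 0 (pr (FreeAlgebra.ι (ZMod 2)))))) '' {r | r ∈ M.rules} ∪
      ((Set.range fun z : Bool × Fin 3 =>
      ((FreeAlgebra.ι (ZMod 2) (Letter.q0 z.1 : Letter T Q n) *
        FreeAlgebra.ι (ZMod 2) (Letter.s (.i0 z.2))),
      (FreeAlgebra.ι (ZMod 2) (Letter.q0 z.1 : Letter T Q n) *
        FreeAlgebra.ι (ZMod 2) (Letter.s (.i1 z.2))))) ∪
      ((Set.range fun z : Bool =>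
      ((FreeAlgebra.ι (ZMod 2) (Letter.q0 z : Letter T Q n) *
        FreeAlgebra.ι (ZMod 2) (Letter.s .B)),
      pr (FreeAlgebra.ι (ZMod 2)) (M.st z))) ∪
      ((Set.range fun z : Fin 3 =>
      ((FreeAlgebra.ι (ZMod 2) (Letter.s (.i0 z) : Letter T Q n) *
        (FreeAlgebra.ι (ZMod 2) (Letter.s .B) * FreeAlgebra.ι (ZMod 2) .E)),
      (FreeAlgebra.ι (ZMod 2) (Letter.s .B : Letter T Q n) *
        FreeAlgebra.ι (ZMod 2) .E))) ∪
      ({((FreeAlgebra.ι (ZMod 2) (Letter.s .bot : Letter T Q n) *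
      FreeAlgebra.ι (ZMod 2) .E), FreeAlgebra.ι (ZMod 2) (.E : Letter T Q n)),
      (FreeAlgebra.ι (ZMod 2) (.qh : Letter T Q n) * FreeAlgebra.ι (ZMod 2) .E, 1)} :
      Set (FreeAlgebra (ZMod 2) (Letter T Q n) × FreeAlgebra (ZMod 2) (Letter T Q n)))))))) ?_
      ?_).trans ?_
  · rintro ⟨x, y⟩ hxy
    cases hxy with
    | comm a b h => exact Or.inl ⟨(a, b), rfl⟩
    | rule_some p γ w h => exact Or.inr (Or.inl ⟨(p, γ, some w), h, rfl⟩)
    | rule_none p γ h => exact Or.inr (Or.inl ⟨(p, γ, none), h, rfl⟩)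
    | hat μ k => exact Or.inr (Or.inr (Or.inl ⟨(μ, k), rfl⟩))
    | start μ => exact Or.inr (Or.inr (Or.inr (Or.inl ⟨μ, rfl⟩)))
    | eat k => exact Or.inr (Or.inr (Or.inr (Or.inr (Or.inl ⟨k, rfl⟩))))
    | vbot => exact Or.inr (Or.inr (Or.inr (Or.inr (Or.inr (Or.inl rfl)))))
    | halt => exact Or.inr (Or.inr (Or.inr (Or.inr (Or.inr (Or.inr rfl)))))
  · exact (hfin _).union ((f0.image _).union ((hfin _).union ((hfin _).union ((hfin _).union
      (Set.toFinite _)))))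
  · refine (Set.ncard_union_le _ _).trans (add_le_add h1 ?_)
    refine (Set.ncard_union_le _ _).trans (add_le_add h2 ?_)
    refine (Set.ncard_union_le _ _).trans (add_le_add h3 ?_)
    refine (Set.ncard_union_le _ _).trans (add_le_add h4 ?_)
    exact (Set.ncard_union_le _ _).trans (add_le_add h5 h6)

theorem fpb_mAlg {T Q : Type} {n : ℕ} [Finite T] [Finite Q] (M : Machine T Q n) (B : ℕ)
    (hB : {r | r ∈ M.rules}.ncard ≤ B) : FPB (mb T Q n B) (MAlg M) := by
  refine fpb_ringQuot _ _ (finite_mrel M) _ ?_ ((mrel_ncard M B hB).trans ?_)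
  · unfold mb
    omega
  · unfold mb
    omega

/-- The embedding theorem for groups with `n` generators, with absolute bounds for the number
of generators and relators of the simple group. -/
theorem exists_bound (n : ℕ) : ∃ N : ℕ, ∀ (G : Type u) [Group G] (f : Fin n → G),
    Subgroup.closure (Set.range f) = ⊤ →
    (ComputablePred fun w : List (Fin n × Bool) => FreeGroup.lift f (FreeGroup.mk w) = 1) →
    ∃ (K : Type) (_ : Group K), IsSimpleGroup K ∧ GPB N K ∧
      ∃ ψ : G →* K, Function.Injective ψ := by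
  obtain ⟨T, Q, _, _, B, hmach⟩ := exists_machine_bdd.{u} n
  obtain ⟨A, _, _, hAn, hAfp, ⟨CA, hCA⟩, ⟨IA⟩⟩ := houghtonAlg
  obtain ⟨L, _, _, hLn, hLfp, ⟨CL, hCL⟩, ⟨l, hl⟩⟩ := leavitt
  obtain ⟨NA, hNA⟩ := FPB.of_fpAlg hAfp
  obtain ⟨NL, hNL⟩ := FPB.of_fpAlg hLfp
  refine ⟨gb (mb T Q n B + (NA + NL + NA * NL) + mb T Q n B * (NA + NL + NA * NL)), ?_⟩
  intro G _ f hf hdec
  obtain ⟨M, tgt, hM, hMB⟩ := hmach G f (by simpa only [ev_eq] using hdec)
  obtain ⟨hRn, ψ, hψ⟩ := mAlg_faithful hf hM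
  have hS := sep_mAlg hM
  have hRfp := fpb_mAlg M B hMB
  -- the algebra `(R ⊗ A) ⊗ L`
  obtain ⟨C, hC⟩ := hCA.tensor hCL
  have : Nontrivial (A ⊗[ZMod 2] L) := nontrivial_tensor
  have : Nontrivial (MAlg M ⊗[ZMod 2] (A ⊗[ZMod 2] L)) := nontrivial_tensor
  obtain ⟨l1, hl1⟩ := (l.tiny_of_adjoin hl).tensor (R := A)
  obtain ⟨l2, hl2⟩ := hl1.tensor (R := MAlg M)
  obtain ⟨I1⟩ := InfSum.tensor_right (R := L) IA
  obtain ⟨I2⟩ := InfSum.tensor_left (R := MAlg M) I1
  obtain ⟨ψ', hψ'⟩ := units_tensor (R := MAlg M) (B := A ⊗[ZMod 2] L)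
  have hpi : PI (MAlg M ⊗[ZMod 2] (A ⊗[ZMod 2] L)) := hS.pi_tensor hC.pi
  have hce : CenterTriv (MAlg M ⊗[ZMod 2] (A ⊗[ZMod 2] L)) := hS.center_tensor hC.center
  obtain ⟨K, iK, hK1, hK2, χ, hχ⟩ :=
    groupStep_bdd _ (hRfp.tensor (hNA.tensor hNL)) hpi hce I2 l2 hl2
  exact ⟨K, iK, hK1, hK2, (χ.comp ψ').comp ψ, (hχ.comp hψ').comp hψ⟩

end Vale.Agent.P193.H870
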