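import Vale.Agent.P193.H870.BddGrp

/-!
Presentations with a bounded number of generators and relators: Steinberg groups.
-/

namespace Vale.Agent.P193.BH.FP

open scoped commutatorElement

/-- The kernel of the projection to the Steinberg group (the argument of `st_fp_gen`, with the
extra relators recorded). -/
theorem toSt_ker {I : Type} (hq4 : ∀ i j k l : I, ∃ q, q ≠ i ∧ q ≠ j ∧ q ≠ k ∧ q ≠ l)
    {A : Type} [Ring A] [Algebra (ZMod 2) A] {σ : Type} (f : FreeAlgebra (ZMod 2) σ →ₐ[ZMod 2] A)
    (s : Set (FreeAlgebra (ZMod 2) σ)) (hf : Function.Surjective f)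
    (hker : ∀ x, f x = 0 ↔ x ∈ TwoSidedIdeal.span s) :
    Function.Surjective (toSt f : P0 I σ →* St I A) ∧ ∃ t : I × I × s → P0 I σ,
      (toSt f : P0 I σ →* St I A).ker = Subgroup.normalClosure (Set.range t) := by
  classical
  have hq3 : ∀ i j : I, ∃ q, q ≠ i ∧ q ≠ j := fun i j => by
    obtain ⟨q, h1, h2, -, -⟩ := hq4 i j j j
    exact ⟨q, h1, h2⟩
  choose pk hpk using hq3
  let W : WSys I σ (P0 I σ) :=
    { y := fun i j u => S0.Y pk u i j
      cm := fun h1 h2 h3 h4 u v => S0.Y_commute hq4 hpk h1 h2 h3 h4 u v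
      co := fun h1 h2 h3 u v => S0.Y_comm hq4 hpk h1 h2 h3 u v
      sq := fun h u => S0.Y_sq hq4 hpk h u }
  -- the projection on words
  have hW : ∀ (u : List σ) (i j : I), i ≠ j → toSt f (W.y i j u) = St.x i j (f (wd u)) := by
    intro u
    induction u with
    | nil =>
      intro i j _
      show toSt f (X0 i j none) = _
      rw [toSt_X0, wd_nil, map_one]; rfl
    | cons a u ih =>
      intro i j hij
      show toSt f ⁅X0 i (pk i j) (some a), W.y (pk i j) j u⁆ = _
      rw [map_commutatorElement, toSt_X0, ih _ _ (hpk i j).2,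
        St.x_comm (hpk i j).1.symm (hpk i j).2 hij, wd_cons, map_mul]
      rfl
  have hF : ∀ (i j : I), i ≠ j → ∀ a, toSt f (W.F i j a) = St.x i j (f a) := by
    intro i j hij a
    induction a using fa_induction with
    | h0 => rw [W.F_zero hij, map_one, map_zero, St.x_zero]
    | hw u => rw [W.F_wd hij, hW u i j hij]
    | ha a b ih ih' => rw [W.F_add hij, map_mul, ih, ih', map_add, St.x_add]
  have hsurj : Function.Surjective (toSt f : P0 I σ →* St I A) := by
    rw [← MonoidHom.range_eq_top, eq_top_iff, ← St.closure_x, Subgroup.closure_le]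
    rintro _ ⟨i, j, a, hij, rfl⟩
    obtain ⟨b, rfl⟩ := hf a
    exact ⟨W.F i j b, hF i j hij b⟩
  refine ⟨hsurj, fun p => if p.1 ≠ p.2.1 then W.F p.1 p.2.1 p.2.2.1 else 1, le_antisymm ?_ ?_⟩
  · let N := Subgroup.normalClosure (Set.range fun p : I × I × s =>
      if p.1 ≠ p.2.1 then W.F p.1 p.2.1 p.2.2.1 else 1)
    let π : P0 I σ →* (P0 I σ) ⧸ N := QuotientGroup.mk' N
    have hπ : ∀ r ∈ s, ∀ i j, i ≠ j → π (W.F i j r) = 1 := by
      intro r hr i j hij
      rw [← MonoidHom.mem_ker, QuotientGroup.ker_mk']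
      refine Subgroup.subset_normalClosure ⟨(i, j, ⟨r, hr⟩), ?_⟩
      simp [hij]
    have hid : ∀ a ∈ TwoSidedIdeal.span s, ∀ i j, i ≠ j → π (W.F i j a) = 1 := fun a ha =>
      W.ideal (fun i j => ⟨pk i j, hpk i j⟩) π s hπ ha
    have heq : ∀ i j, i ≠ j → ∀ b b', f b = f b' → π (W.F i j b) = π (W.F i j b') := by
      intro i j hij b b' hb
      have h1 : f (b - b') = 0 := by rw [map_sub, hb, sub_self]
      have h2 := hid _ ((hker _).1 h1) i j hij
      have h3 : W.F i j b = W.F i j (b - b') * W.F i j b' := by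
        rw [← W.F_add hij, sub_add_cancel]
      rw [h3, map_mul, h2, one_mul]
    choose g hg using hf
    let Xb : I → I → A → (P0 I σ) ⧸ N := fun i j a => if i = j then 1 else π (W.F i j (g a))
    have hXb : ∀ i j, i ≠ j → ∀ b, Xb i j (f b) = π (W.F i j b) := by
      intro i j hij b
      simp only [Xb, if_neg hij]
      exact heq i j hij _ _ (hg _)
    have hXb' : ∀ i j, i ≠ j → ∀ a b, f b = a → Xb i j a = π (W.F i j b) := by
      rintro i j hij a b rfl
      exact hXb i j hij b
    let H : St I A →* (P0 I σ) ⧸ N := St.lift Xb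
      (by intro i a; simp [Xb])
      (by
        intro i j a b hij
        rw [hXb' i j hij a (g a) (hg a), hXb' i j hij b (g b) (hg b),
          hXb' i j hij (a + b) (g a + g b) (by rw [map_add, hg, hg]), W.F_add hij, map_mul])
      (by
        intro i j k a b h1 h2 h3
        rw [hXb' i j h1 a (g a) (hg a), hXb' j k h2 b (g b) (hg b),
          hXb' i k h3 (a * b) (g a * g b) (by rw [map_mul, hg, hg]), ← W.F_comm h1 h2 h3,
          map_commutatorElement])
      (by
        intro i j k l a b h1 h2 h3 h4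
        rw [hXb' i j h1 a (g a) (hg a), hXb' k l h2 b (g b) (hg b), ← map_commutatorElement,
          commutatorElement_eq_one_iff_commute.2 (W.F_commute h1 h2 h3 h4 _ _), map_one])
    have hH : H.comp (toSt f) = π := by
      refine PresentedGroup.ext ?_
      rintro ⟨i, j, o⟩
      change H (toSt f (X0 i j o)) = π (X0 i j o)
      rw [toSt_X0]
      by_cases hij : i = j
      · subst hij
        rw [X0_diag, St.x_diag, map_one, map_one]
      · have e1 : H (St.x i j (el f o)) = Xb i j (el f o) := St.lift_x _ _ _ _ _ _ _ _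
        rw [e1]
        cases o with
        | none =>
          rw [hXb' i j hij _ (wd []) (by rw [wd_nil, map_one]; rfl), W.F_wd hij]
          rfl
        | some a =>
          rw [hXb' i j hij _ (wd [a]) (by rw [wd_cons, wd_nil, mul_one]; rfl), W.F_wd hij]
          congr 1
          exact S0.Y_one hpk hij a
    intro p hp
    rw [MonoidHom.mem_ker] at hp
    have : π p = 1 := by rw [← hH, MonoidHom.comp_apply, hp, map_one]
    rwa [← MonoidHom.mem_ker, QuotientGroup.ker_mk'] at this
  · refine Subgroup.normalClosure_le_normal ?_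
    rintro _ ⟨⟨i, j, r⟩, rfl⟩
    rw [SetLike.mem_coe, MonoidHom.mem_ker]
    dsimp only
    split_ifs with hij
    · rw [hF i j hij, (hker r.1).2 (TwoSidedIdeal.subset_span r.2), St.x_zero]
    · exact map_one _

end Vale.Agent.P193.BH.FP

namespace Vale.Agent.P193.H870

open Vale.Agent.P193.BH Vale.Agent.P193.BH.FP

/-- `A` has a presentation with at most `N` generators and at most `N` relations -/
def FPB (N : ℕ) (A : Type) [Ring A] [Algebra (ZMod 2) A] : Prop :=
  ∃ (ι : Type) (_ : Finite ι) (f : FreeAlgebra (ZMod 2) ι →ₐ[ZMod 2] A)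
    (s : Set (FreeAlgebra (ZMod 2) ι)),
    Function.Surjective f ∧ s.Finite ∧ (∀ x, f x = 0 ↔ x ∈ TwoSidedIdeal.span s) ∧
      Nat.card ι ≤ N ∧ s.ncard ≤ N

theorem FPB.of_fpAlg {A : Type} [Ring A] [Algebra (ZMod 2) A] (h : FPAlg A) : ∃ N, FPB N A := by
  obtain ⟨ι, hι, f, s, h1, h2, h3⟩ := h
  exact ⟨max (Nat.card ι) s.ncard, ι, hι, f, s, h1, h2, h3, le_max_left _ _, le_max_right _ _⟩

theorem card_gen (σ : Type) [Finite σ] :
    Nat.card (Fin 5 × Fin 5 × Option σ) = 25 * (Nat.card σ + 1) := by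
  rw [Nat.card_prod, Nat.card_prod, Nat.card_eq_fintype_card, Fintype.card_fin,
    Finite.card_option]
  ring

theorem rel0_ncard (σ : Type) [Finite σ] :
    (rel0 (Fin 5) σ).ncard ≤ 5 * (Nat.card σ + 1) + 25 * (Nat.card σ + 1) +
      (25 * (Nat.card σ + 1)) * (25 * (Nat.card σ + 1)) + 125 * (Nat.card σ + 1) +
        125 * (Nat.card σ + 1) := by
  unfold rel0
  have c1 : Nat.card (Fin 5 × Option σ) = 5 * (Nat.card σ + 1) := by
    rw [Nat.card_prod, Nat.card_eq_fintype_card, Fintype.card_fin, Finite.card_option]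
  have c2 := card_gen σ
  have c3 : Nat.card ((Fin 5 × Fin 5 × Option σ) × (Fin 5 × Fin 5 × Option σ)) =
      (25 * (Nat.card σ + 1)) * (25 * (Nat.card σ + 1)) := by
    rw [Nat.card_prod, c2]
  have c4 : Nat.card (Fin 5 × Fin 5 × Fin 5 × Option σ) = 125 * (Nat.card σ + 1) := by
    rw [Nat.card_prod, c2, Nat.card_eq_fintype_card, Fintype.card_fin]
    ring
  refine (Set.ncard_union_le _ _).trans (add_le_add ?_ ?_)
  · refine (Set.ncard_union_le _ _).trans (add_le_add ?_ ?_)
    · refine (Set.ncard_union_le _ _).trans (add_le_add ?_ ?_)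
      · refine (Set.ncard_union_le _ _).trans (add_le_add ?_ ?_)
        · exact (ncard_range_le _).trans c1.le
        · exact (ncard_range_le _).trans c2.le
      · exact (ncard_range_le _).trans c3.le
    · exact (ncard_range_le _).trans c4.le
  · exact (ncard_range_le _).trans c4.le

/-- the bound for the Steinberg group -/
def gb (N : ℕ) : ℕ := 280 * (N + 1) + (25 * (N + 1)) * (25 * (N + 1)) + 25 * N

theorem st_gpb {N : ℕ} (A : Type) [Ring A] [Algebra (ZMod 2) A] (h : FPB N A) :
    GPB (gb N) (St (Fin 5) A) := by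
  obtain ⟨σ, hσ, f, s, hf, hsf, hker, h1, h2⟩ := h
  have hq4 : ∀ i j k l : Fin 5, ∃ q, q ≠ i ∧ q ≠ j ∧ q ≠ k ∧ q ≠ l := by
    intro i j k l
    have hc : ({i, j, k, l} : Finset (Fin 5)).card < (Finset.univ : Finset (Fin 5)).card := by
      refine lt_of_le_of_lt Finset.card_le_four ?_
      simp
    obtain ⟨q, -, hq⟩ := Finset.exists_mem_notMem_of_card_lt_card hc
    simp only [Finset.mem_insert, Finset.mem_singleton, not_or] at hq
    exact ⟨q, hq.1, hq.2.1, hq.2.2.1, hq.2.2.2⟩
  obtain ⟨hsurj, t, ht⟩ := toSt_ker hq4 f s hf hker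
  have := hsf.to_subtype
  have h3 : (25 * (Nat.card σ + 1)) * (25 * (Nat.card σ + 1)) ≤
      (25 * (N + 1)) * (25 * (N + 1)) := by
    apply Nat.mul_le_mul <;> omega
  refine GPB.of_ker (PresentedGroup.mk (rel0 (Fin 5) σ)) (PresentedGroup.mk_surjective _)
    (rel0 (Fin 5) σ) (rel0_finite _ _) (QuotientGroup.ker_mk' _) (toSt f) hsurj t ht (gb N) ?_ ?_
  · rw [card_gen]
    unfold gb
    omega
  · have h4 := rel0_ncard σ
    have h5 : Nat.card (Fin 5 × Fin 5 × s) = 25 * s.ncard := by
      rw [Nat.card_prod, Nat.card_prod, Nat.card_eq_fintype_card, Fintype.card_fin,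
        Nat.card_coe_set_eq]
      ring
    rw [h5]
    unfold gb
    omega

/-- the group step with bounds -/
theorem groupStep_bdd {N : ℕ} (A : Type) [Ring A] [Algebra (ZMod 2) A] [Nontrivial A]
    (hfp : FPB N A) (hpi : PI A) (hc : CenterTriv A) (I : InfSum A) (L : Leav A) (hL : L.Tiny) :
    ∃ (K : Type) (_ : Group K), IsSimpleGroup K ∧ GPB (gb N) K ∧
      ∃ ψ : Aˣ →* K, Function.Injective ψ := by
  have := charP_two A
  refine ⟨EGrp (Fin 5) A, inferInstance, egrp_simple (Fin 5) A (by simp) hpi hc L hL, ?_,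
    exists_embed (Fin 5) A (by simp) I⟩
  have hinj := toGL_injective (ι := Fin 5) I L hL (by simp)
  exact (st_gpb A hfp).equiv (MonoidHom.ofInjective hinj)

end Vale.Agent.P193.H870
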