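import Vale.Agent.P193.H870.BddSt

/-!
Presentations with a bounded number of generators and relations: tensor products.
-/

namespace Vale.Agent.P193.H870

open Vale.Agent.P193.BH TensorProduct

variable {A B : Type} [Ring A] [Algebra (ZMod 2) A] [Ring B] [Algebra (ZMod 2) B]

/-- tensor products with bounds (the argument of `FPAlg.tensor`) -/
theorem FPB.tensor {N M : ℕ} (hA : FPB N A) (hB : FPB M B) :
    FPB (N + M + N * M) (A ⊗[ZMod 2] B) := by
  classical
  obtain ⟨ι, hι, f, s, hf, hs, hfs, hcι, hcs⟩ := hA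
  obtain ⟨κ, hκ, g, t, hg, ht, hgt, hcκ, hct⟩ := hB
  let ja : FreeAlgebra (ZMod 2) ι →ₐ[ZMod 2] FreeAlgebra (ZMod 2) (ι ⊕ κ) :=
    FreeAlgebra.lift (ZMod 2) fun i => FreeAlgebra.ι (ZMod 2) (Sum.inl i)
  let jb : FreeAlgebra (ZMod 2) κ →ₐ[ZMod 2] FreeAlgebra (ZMod 2) (ι ⊕ κ) :=
    FreeAlgebra.lift (ZMod 2) fun i => FreeAlgebra.ι (ZMod 2) (Sum.inr i)
  let c : ι × κ → FreeAlgebra (ZMod 2) (ι ⊕ κ) := fun p =>
    FreeAlgebra.ι (ZMod 2) (Sum.inl p.1) * FreeAlgebra.ι (ZMod 2) (Sum.inr p.2) -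
      FreeAlgebra.ι (ZMod 2) (Sum.inr p.2) * FreeAlgebra.ι (ZMod 2) (Sum.inl p.1)
  let u : Set (FreeAlgebra (ZMod 2) (ι ⊕ κ)) := ja '' s ∪ jb '' t ∪ Set.range c
  let h : FreeAlgebra (ZMod 2) (ι ⊕ κ) →ₐ[ZMod 2] A ⊗[ZMod 2] B :=
    FreeAlgebra.lift (ZMod 2) (Sum.elim (fun i => f (FreeAlgebra.ι (ZMod 2) i) ⊗ₜ 1)
      (fun j => 1 ⊗ₜ g (FreeAlgebra.ι (ZMod 2) j)))
  have hja : ∀ x, h (ja x) = f x ⊗ₜ 1 := by
    intro x
    have : h.comp ja = (Algebra.TensorProduct.includeLeft).comp f := by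
      apply FreeAlgebra.hom_ext
      funext i
      simp [h, ja]
    exact DFunLike.congr_fun this x
  have hjb : ∀ x, h (jb x) = 1 ⊗ₜ g x := by
    intro x
    have : h.comp jb = (Algebra.TensorProduct.includeRight).comp g := by
      apply FreeAlgebra.hom_ext
      funext i
      simp [h, jb]
    exact DFunLike.congr_fun this x
  have hu : ∀ x ∈ u, h x = 0 := by
    rintro x ((⟨y, hy, rfl⟩ | ⟨y, hy, rfl⟩) | ⟨⟨i, j⟩, rfl⟩)
    · rw [hja, (hfs y).2 (TwoSidedIdeal.subset_span hy), TensorProduct.zero_tmul]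
    · rw [hjb, (hgt y).2 (TwoSidedIdeal.subset_span hy), TensorProduct.tmul_zero]
    · simp [c, h]
  let I : TwoSidedIdeal (FreeAlgebra (ZMod 2) (ι ⊕ κ)) := TwoSidedIdeal.span u
  let π : FreeAlgebra (ZMod 2) (ι ⊕ κ) →ₐ[ZMod 2] I.ringCon.Quotient :=
    { RingCon.mk' I.ringCon with commutes' := fun r => rfl }
  have hπ : ∀ x, π x = 0 ↔ x ∈ I := by
    intro x
    rw [TwoSidedIdeal.mem_iff]
    exact (RingCon.eq I.ringCon)
  have hπu : ∀ x ∈ u, π x = 0 := fun x hx => (hπ x).2 (TwoSidedIdeal.subset_span hx)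
  obtain ⟨α, hα⟩ := exists_algLift_tfp f hf (π.comp ja) (fun x hx =>
    span_le_of_tfp (π.comp ja) s (fun y hy => hπu _ (Or.inl (Or.inl ⟨y, hy, rfl⟩)))
      ((hfs x).1 hx))
  obtain ⟨β, hβ⟩ := exists_algLift_tfp g hg (π.comp jb) (fun x hx =>
    span_le_of_tfp (π.comp jb) t (fun y hy => hπu _ (Or.inl (Or.inr ⟨y, hy, rfl⟩)))
      ((hgt x).1 hx))
  have hc0 : ∀ i j, Commute (π (FreeAlgebra.ι (ZMod 2) (Sum.inl i)))
      (π (FreeAlgebra.ι (ZMod 2) (Sum.inr j))) := by
    intro i j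
    have h1 := hπu (c (i, j)) (Or.inr ⟨(i, j), rfl⟩)
    simp only [c, map_sub, map_mul, sub_eq_zero] at h1
    exact h1
  have hc1 : ∀ i y, Commute (π (FreeAlgebra.ι (ZMod 2) (Sum.inl i))) (π (jb y)) := by
    intro i y
    induction y using FreeAlgebra.induction with
    | grade0 r =>
      rw [AlgHom.commutes, AlgHom.commutes]
      exact (Algebra.commutes _ _).symm
    | grade1 j =>
      have : jb (FreeAlgebra.ι (ZMod 2) j) = FreeAlgebra.ι (ZMod 2) (Sum.inr j) := by simp [jb]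
      rw [this]
      exact hc0 i j
    | mul a b ha hb =>
      rw [map_mul, map_mul]
      exact ha.mul_right hb
    | add a b ha hb =>
      rw [map_add, map_add]
      exact ha.add_right hb
  have hc2 : ∀ x y, Commute (π (ja x)) (π (jb y)) := by
    intro x y
    induction x using FreeAlgebra.induction with
    | grade0 r =>
      rw [AlgHom.commutes, AlgHom.commutes]
      exact (Algebra.commutes _ _)
    | grade1 j =>
      have : ja (FreeAlgebra.ι (ZMod 2) j) = FreeAlgebra.ι (ZMod 2) (Sum.inl j) := by simp [ja]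
      rw [this]
      exact hc1 j y
    | mul a b ha hb =>
      rw [map_mul, map_mul]
      exact ha.mul_left hb
    | add a b ha hb =>
      rw [map_add, map_add]
      exact ha.add_left hb
  let θ : A ⊗[ZMod 2] B →ₐ[ZMod 2] I.ringCon.Quotient :=
    Algebra.TensorProduct.lift α β (by
      intro a b
      obtain ⟨x, rfl⟩ := hf a
      obtain ⟨y, rfl⟩ := hg b
      rw [hα, hβ]
      exact hc2 x y)
  have hθ : ∀ x, θ (h x) = π x := by
    intro x
    have : θ.comp h = π := by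
      apply FreeAlgebra.hom_ext
      funext i
      rcases i with i | j
      · have e := hα (FreeAlgebra.ι (ZMod 2) i)
        simp only [AlgHom.comp_apply, ja, FreeAlgebra.lift_ι_apply] at e
        simp [h, θ, e]
      · have e := hβ (FreeAlgebra.ι (ZMod 2) j)
        simp only [AlgHom.comp_apply, jb, FreeAlgebra.lift_ι_apply] at e
        simp [h, θ, e]
    exact DFunLike.congr_fun this x
  refine ⟨ι ⊕ κ, inferInstance, h, u, ?_, ?_, ?_, ?_, ?_⟩
  · intro z
    induction z using TensorProduct.induction_on with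
    | zero => exact ⟨0, map_zero _⟩
    | tmul a b =>
      obtain ⟨x, rfl⟩ := hf a
      obtain ⟨y, rfl⟩ := hg b
      exact ⟨ja x * jb y, by rw [map_mul, hja, hjb]; simp⟩
    | add a b ha hb =>
      obtain ⟨x, rfl⟩ := ha
      obtain ⟨y, rfl⟩ := hb
      exact ⟨x + y, map_add _ _ _⟩
  · exact ((hs.image _).union (ht.image _)).union (Set.finite_range _)
  · intro x
    constructor
    · intro hx
      have : π x = 0 := by rw [← hθ, hx, map_zero]
      exact (hπ x).1 this
    · exact span_le_of_tfp h u hu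
  · rw [Nat.card_sum]
    have : 0 ≤ N * M := Nat.zero_le _
    omega
  · have a1 := Set.ncard_union_le (ja '' s ∪ jb '' t) (Set.range c)
    have a2 := Set.ncard_union_le (ja '' s) (jb '' t)
    have a3 := Set.ncard_image_le (f := ja) hs
    have a4 := Set.ncard_image_le (f := jb) ht
    have a5 := ncard_range_le c
    rw [Nat.card_prod] at a5
    have a6 : Nat.card ι * Nat.card κ ≤ N * M := Nat.mul_le_mul hcι hcκ
    show (ja '' s ∪ jb '' t ∪ Set.range c).ncard ≤ N + M + N * M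
    omega

end Vale.Agent.P193.H870
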