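import Vale.Agent.P193.H870.Perm

/-!
The word problem of the permutation group, and the embedding.
-/

namespace Vale.Agent.P193.H870

open Vale.Agent.P193.BH

/-! ### codes of points -/

/-- coded points: two differences of natural numbers, and a word -/
abbrev St := (ℕ × ℕ) × (ℕ × ℕ) × List (ℕ × Bool)

/-- the root of the first coordinate -/
def sq (s : St) : ℕ := Nat.sqrt (s.1.1 - s.1.2)

/-- the action of a letter on codes -/
def stp (l : Fin 3 × Bool) (s : St) : St :=
  if l.1 = 0 then
    (if l.2 = true then ((s.1.1 + 1, s.1.2), s.2) else ((s.1.1, s.1.2 + 1), s.2))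
  else if l.1 = 1 then
    (if s.1.1 = s.1.2 then
      (if l.2 = true then (s.1, (s.2.1.1 + 1, s.2.1.2), s.2.2)
        else (s.1, (s.2.1.1, s.2.1.2 + 1), s.2.2))
    else s)
  else
    (if s.2.1.2 ≤ s.2.1.1 ∧ sq s * sq s + s.1.2 = s.1.1 then
      (s.1, s.2.1, (sq s, l.2) :: s.2.2) else s)

/-- the action of a word on codes -/
def run (w : List (Fin 3 × Bool)) (s : St) : St := w.foldr stp s

section

variable {H : Type*} [Group H]

/-- the point of a code -/
def dec (h : ℕ → H) (s : St) : X H :=
  ((s.1.1 : ℤ) - s.1.2, (s.2.1.1 : ℤ) - s.2.1.2, FreeGroup.lift h (FreeGroup.mk s.2.2))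

theorem lift_cons {α : Type*} (h : α → H) (a : α) (b : Bool) (u : List (α × Bool)) :
    FreeGroup.lift h (FreeGroup.mk ((a, b) :: u)) =
      (if b = true then h a else (h a)⁻¹) * FreeGroup.lift h (FreeGroup.mk u) := by
  rw [FreeGroup.lift_mk, FreeGroup.lift_mk, List.map_cons, List.prod_cons]
  cases b <;> simp

theorem dec_stp (h : ℕ → H) (l : Fin 3 × Bool) (s : St) :
    dec h (stp l s) = stepX h l (dec h s) := by
  obtain ⟨⟨a, b⟩, ⟨c, d⟩, u⟩ := s
  obtain ⟨i, e⟩ := l
  by_cases hi : i = 0
  · subst hi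
    cases e
    · simp [stp, dec, stepX]
      ring
    · simp [stp, dec, stepX]
      ring
  by_cases hi' : i = 1
  · subst hi'
    by_cases hab : a = b
    · cases e
      · simp [stp, dec, stepX, hab]
        ring
      · simp [stp, dec, stepX, hab]
        ring
    · have hab' : (a : ℤ) - b ≠ 0 := by
        intro h0
        apply hab
        have : (a : ℤ) = b := by linarith
        exact_mod_cast this
      simp [stp, dec, stepX, hab, hab']
  · have hrt : rt ((a : ℤ) - b) = Nat.sqrt (a - b) := by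
      unfold rt
      congr 1
      omega
    have hiff : IsSq ((a : ℤ) - b) ↔ Nat.sqrt (a - b) * Nat.sqrt (a - b) + b = a := by
      unfold IsSq
      rw [hrt]
      constructor
      · intro h0
        have : ((Nat.sqrt (a - b) : ℕ) : ℤ) * (Nat.sqrt (a - b) : ℕ) + b = a := by linarith
        exact_mod_cast this
      · intro h0
        have : ((Nat.sqrt (a - b) : ℕ) : ℤ) * (Nat.sqrt (a - b) : ℕ) + b = a := by
          exact_mod_cast h0
        linarith
    have hcd : (0 : ℤ) ≤ (c : ℤ) - d ↔ d ≤ c := by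
      constructor
      · intro h0
        have : (d : ℤ) ≤ c := by linarith
        exact_mod_cast this
      · intro h0
        have : (d : ℤ) ≤ c := by exact_mod_cast h0
        linarith
    by_cases hc : d ≤ c ∧ Nat.sqrt (a - b) * Nat.sqrt (a - b) + b = a
    · have hv : vl h ((a : ℤ) - b) ((c : ℤ) - d) = h (Nat.sqrt (a - b)) := by
        unfold vl
        rw [if_pos ⟨hcd.2 hc.1, hiff.2 hc.2⟩, hrt]
      have h1 : stp (i, e) ((a, b), (c, d), u) =
          ((a, b), (c, d), (Nat.sqrt (a - b), e) :: u) := by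
        simp [stp, hi, hi', sq, hc]
      rw [h1]
      simp only [dec, stepX, hi, hi', if_false, lift_cons, hv]
    · have hv : vl h ((a : ℤ) - b) ((c : ℤ) - d) = 1 := by
        unfold vl
        rw [if_neg]
        rintro ⟨h1, h2⟩
        exact hc ⟨hcd.1 h1, hiff.1 h2⟩
      have h1 : stp (i, e) ((a, b), (c, d), u) = ((a, b), (c, d), u) := by
        unfold stp
        rw [if_neg hi, if_neg hi']
        exact if_neg hc
      rw [h1]
      simp [dec, stepX, hi, hi', hv]

theorem dec_run (h : ℕ → H) (w : List (Fin 3 × Bool)) (s : St) :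
    dec h (run w s) = act h w (dec h s) := by
  induction w with
  | nil => rfl
  | cons l w ih =>
    rw [act_cons, ← ih, ← dec_stp]
    rfl

/-- the test at one point -/
def Tst (h : ℕ → H) (w : List (Fin 3 × Bool)) (a c : ℕ) : Prop :=
  ((run w ((a, bd w.length), (c, w.length + 1), [])).1.1 + bd w.length =
    a + (run w ((a, bd w.length), (c, w.length + 1), [])).1.2) ∧
  ((run w ((a, bd w.length), (c, w.length + 1), [])).2.1.1 + (w.length + 1) =
    c + (run w ((a, bd w.length), (c, w.length + 1), [])).2.1.2) ∧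
  FreeGroup.lift h (FreeGroup.mk (run w ((a, bd w.length), (c, w.length + 1), [])).2.2) = 1

theorem tst_iff (h : ℕ → H) (w : List (Fin 3 × Bool)) (a c : ℕ) :
    Tst h w a c ↔ act h w ((a : ℤ) - bd w.length, (c : ℤ) - (w.length + 1 : ℕ), 1) =
      ((a : ℤ) - bd w.length, (c : ℤ) - (w.length + 1 : ℕ), 1) := by
  have h1 := dec_run h w ((a, bd w.length), (c, w.length + 1), [])
  have h2 : dec h (((a, bd w.length), (c, w.length + 1), []) : St) =
      ((a : ℤ) - bd w.length, (c : ℤ) - (w.length + 1 : ℕ), 1) := by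
    unfold dec
    rw [← FreeGroup.one_eq_mk, map_one]
  rw [h2] at h1
  rw [← h1]
  unfold Tst dec
  generalize run w ((a, bd w.length), (c, w.length + 1), []) = s
  rw [Prod.mk.injEq, Prod.mk.injEq]
  refine and_congr ?_ (and_congr ?_ Iff.rfl)
  · omega
  · omega

theorem word_iff (h : ℕ → H) (χ : H →* Multiplicative ℤ)
    (hχ : ∀ k, χ (h k) = Multiplicative.ofAdd 1) (w : List (Fin 3 × Bool)) :
    FreeGroup.lift (gen h) (FreeGroup.mk w) = 1 ↔
      ∀ a < 2 * bd w.length + 1, ∀ c < 2 * w.length + 3, Tst h w a c := by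
  constructor
  · intro h1 a _ c _
    rw [tst_iff, ← lift_apply, h1]
    rfl
  · intro h1
    ext1 p
    rw [lift_apply]
    show act h w p = p
    apply act_criterion h χ hχ w
    intro n m hn1 hn2 hm1 hm2
    have h2 := (tst_iff h w (n + bd w.length).toNat (m + w.length + 1).toNat).1
      (h1 _ (by omega) _ (by omega))
    have e1 : (((n + bd w.length).toNat : ℕ) : ℤ) - bd w.length = n := by omega
    have e2 : (((m + w.length + 1).toNat : ℕ) : ℤ) - (w.length + 1 : ℕ) = m := by omega
    rw [e1, e2] at h2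
    exact h2

end

/-! ### computability -/

theorem primrec_sq : Primrec sq := by
  unfold sq
  exact Primrec.nat_sqrt.comp (Primrec.nat_sub.comp (Primrec.fst.comp Primrec.fst)
    (Primrec.snd.comp Primrec.fst))

theorem primrec_stp : Primrec₂ stp := by
  apply Primrec₂.mk
  have l1 : Primrec fun q : (Fin 3 × Bool) × St => q.1.1 := Primrec.fst.comp Primrec.fst
  have l2 : Primrec fun q : (Fin 3 × Bool) × St => q.1.2 := Primrec.snd.comp Primrec.fst
  have s0 : Primrec fun q : (Fin 3 × Bool) × St => q.2 := Primrec.snd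
  have s1 : Primrec fun q : (Fin 3 × Bool) × St => q.2.1 := Primrec.fst.comp s0
  have s2 : Primrec fun q : (Fin 3 × Bool) × St => q.2.2 := Primrec.snd.comp s0
  have s11 : Primrec fun q : (Fin 3 × Bool) × St => q.2.1.1 := Primrec.fst.comp s1
  have s12 : Primrec fun q : (Fin 3 × Bool) × St => q.2.1.2 := Primrec.snd.comp s1
  have s21 : Primrec fun q : (Fin 3 × Bool) × St => q.2.2.1 := Primrec.fst.comp s2
  have s22 : Primrec fun q : (Fin 3 × Bool) × St => q.2.2.2 := Primrec.snd.comp s2
  have s211 : Primrec fun q : (Fin 3 × Bool) × St => q.2.2.1.1 := Primrec.fst.comp s21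
  have s212 : Primrec fun q : (Fin 3 × Bool) × St => q.2.2.1.2 := Primrec.snd.comp s21
  have sr : Primrec fun q : (Fin 3 × Bool) × St => sq q.2 := primrec_sq.comp s0
  have cb : PrimrecPred fun q : (Fin 3 × Bool) × St => q.1.2 = true :=
    PrimrecRel.comp Primrec.eq l2 (Primrec.const true)
  unfold stp
  refine Primrec.ite (PrimrecRel.comp Primrec.eq l1 (Primrec.const 0)) ?_
    (Primrec.ite (PrimrecRel.comp Primrec.eq l1 (Primrec.const 1)) ?_ ?_)
  · exact Primrec.ite cb (Primrec.pair (Primrec.pair (Primrec.succ.comp s11) s12) s2)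
      (Primrec.pair (Primrec.pair s11 (Primrec.succ.comp s12)) s2)
  · refine Primrec.ite (PrimrecRel.comp Primrec.eq s11 s12) ?_ s0
    exact Primrec.ite cb
      (Primrec.pair s1 (Primrec.pair (Primrec.pair (Primrec.succ.comp s211) s212) s22))
      (Primrec.pair s1 (Primrec.pair (Primrec.pair s211 (Primrec.succ.comp s212)) s22))
  · refine Primrec.ite (PrimrecPred.and (PrimrecRel.comp Primrec.nat_le s212 s211)
      (PrimrecRel.comp Primrec.eq (Primrec.nat_add.comp (Primrec.nat_mul.comp sr sr) s12) s11))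
      ?_ s0
    exact Primrec.pair s1 (Primrec.pair s21 (Primrec.list_cons.comp (Primrec.pair sr l2) s22))

theorem primrec_run : Primrec₂ run := by
  apply Primrec₂.mk
  unfold run
  refine Primrec.list_foldr (f := fun q : List (Fin 3 × Bool) × St => q.1) (g := fun q => q.2)
    (h := fun _ r => stp r.1 r.2) Primrec.fst Primrec.snd ?_
  apply Primrec₂.mk
  exact primrec_stp.comp (Primrec.fst.comp Primrec.snd) (Primrec.snd.comp Primrec.snd)

theorem primrec_bd : Primrec bd := by
  unfold bd
  exact Primrec.nat_add.comp (Primrec.nat_mul.comp Primrec.succ Primrec.succ) Primrec.id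

section

variable {H : Type*} [Group H]

theorem tst_computable (h : ℕ → H)
    (hdec : ComputablePred fun u : List (ℕ × Bool) => FreeGroup.lift h (FreeGroup.mk u) = 1) :
    ComputablePred fun x : (List (Fin 3 × Bool) × ℕ) × ℕ => Tst h x.1.1 x.1.2 x.2 := by
  have w : Primrec fun x : (List (Fin 3 × Bool) × ℕ) × ℕ => x.1.1 :=
    Primrec.fst.comp Primrec.fst
  have a : Primrec fun x : (List (Fin 3 × Bool) × ℕ) × ℕ => x.1.2 :=
    Primrec.snd.comp Primrec.fst
  have c : Primrec fun x : (List (Fin 3 × Bool) × ℕ) × ℕ => x.2 := Primrec.snd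
  have len : Primrec fun x : (List (Fin 3 × Bool) × ℕ) × ℕ => x.1.1.length :=
    Primrec.list_length.comp w
  have b := primrec_bd.comp len
  have r : Primrec fun x : (List (Fin 3 × Bool) × ℕ) × ℕ =>
      run x.1.1 ((x.1.2, bd x.1.1.length), (x.2, x.1.1.length + 1), []) :=
    primrec_run.comp w (Primrec.pair (Primrec.pair a b) (Primrec.pair (Primrec.pair c
      (Primrec.succ.comp len)) (Primrec.const [])))
  unfold Tst
  refine CI.pand ?_ (CI.pand ?_ ?_)
  · exact (PrimrecRel.comp Primrec.eq
      (Primrec.nat_add.comp (Primrec.fst.comp (Primrec.fst.comp r)) b)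
      (Primrec.nat_add.comp a (Primrec.snd.comp (Primrec.fst.comp r)))).computablePred
  · exact (PrimrecRel.comp Primrec.eq
      (Primrec.nat_add.comp (Primrec.fst.comp (Primrec.fst.comp (Primrec.snd.comp r)))
        (Primrec.succ.comp len))
      (Primrec.nat_add.comp c (Primrec.snd.comp (Primrec.fst.comp (Primrec.snd.comp
        r))))).computablePred
  · exact CI.pcomp hdec (Primrec.snd.comp (Primrec.snd.comp r)).to_comp

/-- the word problem of the permutation group -/
theorem word_computable (h : ℕ → H) (χ : H →* Multiplicative ℤ)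
    (hχ : ∀ k, χ (h k) = Multiplicative.ofAdd 1)
    (hdec : ComputablePred fun u : List (ℕ × Bool) => FreeGroup.lift h (FreeGroup.mk u) = 1) :
    ComputablePred fun w : List (Fin 3 × Bool) =>
      FreeGroup.lift (gen h) (FreeGroup.mk w) = 1 := by
  have h1 := tst_computable h hdec
  have h2 : ComputablePred fun x : List (Fin 3 × Bool) × ℕ =>
      ∀ c < 2 * x.1.length + 3, Tst h x.1 x.2 c := by
    refine CI.pball (p := fun (x : List (Fin 3 × Bool) × ℕ) c => Tst h x.1 x.2 c)
      (b := fun x : List (Fin 3 × Bool) × ℕ => 2 * x.1.length + 3) h1 ?_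
    exact (Primrec.nat_add.comp (Primrec.nat_mul.comp (Primrec.const 2)
      (Primrec.list_length.comp Primrec.fst)) (Primrec.const 3)).to_comp
  have h3 : ComputablePred fun w : List (Fin 3 × Bool) =>
      ∀ a < 2 * bd w.length + 1, ∀ c < 2 * w.length + 3, Tst h w a c := by
    refine CI.pball (p := fun (w : List (Fin 3 × Bool)) a => ∀ c < 2 * w.length + 3, Tst h w a c)
      (b := fun w : List (Fin 3 × Bool) => 2 * bd w.length + 1) h2 ?_
    exact (Primrec.nat_add.comp (Primrec.nat_mul.comp (Primrec.const 2)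
      (primrec_bd.comp Primrec.list_length)) (Primrec.const 1)).to_comp
  exact h3.of_eq fun w => (word_iff h χ hχ w).symm

/-! ### the embedding -/

/-- `H` acts on one fibre -/
def iot (H : Type*) [Group H] : H →* Equiv.Perm (X H) where
  toFun g :=
    { toFun := fun p => (p.1, p.2.1, (if p.1 = 0 ∧ p.2.1 = 0 then g else 1) * p.2.2)
      invFun := fun p => (p.1, p.2.1, (if p.1 = 0 ∧ p.2.1 = 0 then g else 1)⁻¹ * p.2.2)
      left_inv := fun p => by
        show (p.1, p.2.1, (if p.1 = 0 ∧ p.2.1 = 0 then g else 1)⁻¹ *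
          ((if p.1 = 0 ∧ p.2.1 = 0 then g else 1) * p.2.2)) = p
        rw [inv_mul_cancel_left]
      right_inv := fun p => by
        show (p.1, p.2.1, (if p.1 = 0 ∧ p.2.1 = 0 then g else 1) *
          ((if p.1 = 0 ∧ p.2.1 = 0 then g else 1)⁻¹ * p.2.2)) = p
        rw [mul_inv_cancel_left] }
  map_one' := by
    ext1 p
    show (p.1, p.2.1, (if p.1 = 0 ∧ p.2.1 = 0 then (1 : H) else 1) * p.2.2) = p
    simp
  map_mul' g g' := by
    ext1 p
    show (p.1, p.2.1, (if p.1 = 0 ∧ p.2.1 = 0 then g * g' else 1) * p.2.2) =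
      (p.1, p.2.1, (if p.1 = 0 ∧ p.2.1 = 0 then g else 1) *
        ((if p.1 = 0 ∧ p.2.1 = 0 then g' else 1) * p.2.2))
    split_ifs <;> simp [mul_assoc]

theorem iot_apply (g : H) (p : X H) :
    iot H g p = (p.1, p.2.1, (if p.1 = 0 ∧ p.2.1 = 0 then g else 1) * p.2.2) := rfl

theorem iot_injective : Function.Injective (iot H) := by
  intro g g' hg
  have h1 := congrArg (fun e : Equiv.Perm (X H) => (e (0, 0, 1)).2.2) hg
  simpa [iot_apply] using h1

omit [Group H] in
theorem pT_pow (k : ℕ) (p : X H) : (pT H ^ k) p = (p.1 + k, p.2.1, p.2.2) := by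
  induction k generalizing p with
  | zero => simp
  | succ k ih =>
    rw [pow_succ, Equiv.Perm.mul_apply, ih]
    show (p.1 + 1 + (k : ℤ), p.2.1, p.2.2) = _
    push_cast
    rw [add_assoc, add_comm (1 : ℤ) k]

omit [Group H] in
theorem pT_pow_inv (k : ℕ) (p : X H) : (pT H ^ k)⁻¹ p = (p.1 - k, p.2.1, p.2.2) := by
  rw [Equiv.Perm.inv_eq_iff_eq, pT_pow]
  simp

/-- the third permutation, shifted -/
theorem shift_apply (h : ℕ → H) (k : ℕ) (p : X H) :
    ((pT H ^ k)⁻¹ * pF h * pT H ^ k) p = (p.1, p.2.1, vl h (p.1 + k) p.2.1 * p.2.2) := by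
  rw [Equiv.Perm.mul_apply, Equiv.Perm.mul_apply, pT_pow, pT_pow_inv]
  show (p.1 + (k : ℤ) - k, p.2.1, vl h (p.1 + (k : ℤ)) p.2.1 * p.2.2) = _
  rw [add_sub_cancel_right]

theorem shift_inv_apply (h : ℕ → H) (k : ℕ) (p : X H) :
    ((pT H ^ k)⁻¹ * pF h * pT H ^ k)⁻¹ p =
      (p.1, p.2.1, (vl h (p.1 + k) p.2.1)⁻¹ * p.2.2) := by
  rw [Equiv.Perm.inv_eq_iff_eq, shift_apply]
  simp

theorem iot_eq (h : ℕ → H) (k : ℕ) :
    iot H (h k) = ((pT H ^ (k * k))⁻¹ * pF h * pT H ^ (k * k)) * pS H *
      ((pT H ^ (k * k))⁻¹ * pF h * pT H ^ (k * k))⁻¹ * (pS H)⁻¹ := by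
  ext1 p
  obtain ⟨n, m, x⟩ := p
  rw [Equiv.Perm.mul_apply, Equiv.Perm.mul_apply, Equiv.Perm.mul_apply]
  have h1 : (pS H)⁻¹ (n, m, x) = (n, m - (if n = 0 then 1 else 0), x) := rfl
  rw [h1, shift_inv_apply]
  have h2 : ∀ q : X H, pS H q = (q.1, q.2.1 + (if q.1 = 0 then 1 else 0), q.2.2) := fun _ => rfl
  rw [h2, shift_apply, iot_apply]
  simp only [sub_add_cancel]
  by_cases hn : n = 0
  · subst hn
    simp only [zero_add, true_and, if_true]
    have hsq : IsSq ((k * k : ℕ) : ℤ) := by
      have := isSq_sq k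
      push_cast
      exact this
    have hrt : rt ((k * k : ℕ) : ℤ) = k := by
      have := rt_sq k
      push_cast
      exact this
    have hv1 : ∀ m : ℤ, 0 ≤ m → vl h ((k * k : ℕ) : ℤ) m = h k := by
      intro m hm
      unfold vl
      rw [if_pos ⟨hm, hsq⟩, hrt]
    have hv2 : ∀ m : ℤ, ¬ 0 ≤ m → vl h ((k * k : ℕ) : ℤ) m = 1 := by
      intro m hm
      unfold vl
      rw [if_neg fun h0 => hm h0.1]
    rcases lt_trichotomy m 0 with hm | hm | hm
    · rw [hv2 m (by omega), hv2 (m - 1) (by omega), if_neg (by omega : m ≠ 0)]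
      simp
    · rw [hv1 m (by omega), hv2 (m - 1) (by omega), if_pos hm]
      simp
    · rw [hv1 m (by omega), hv1 (m - 1) (by omega), if_neg (by omega : m ≠ 0)]
      simp
  · simp [hn]

theorem range_gen_mem (h : ℕ → H) (i : Fin 3) : gen h i ∈ Subgroup.closure (Set.range (gen h)) :=
  Subgroup.subset_closure ⟨i, rfl⟩

theorem iot_mem (h : ℕ → H) (g : H) (hg : g ∈ Subgroup.closure (Set.range h)) :
    iot H g ∈ Subgroup.closure (Set.range (gen h)) := by
  have h1 : Subgroup.closure (Set.range h) ≤
      (Subgroup.closure (Set.range (gen h))).comap (iot H) := by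
    rw [Subgroup.closure_le]
    rintro _ ⟨k, rfl⟩
    show iot H (h k) ∈ Subgroup.closure (Set.range (gen h))
    rw [iot_eq]
    have hT : pT H ∈ Subgroup.closure (Set.range (gen h)) := range_gen_mem h 0
    have hS : pS H ∈ Subgroup.closure (Set.range (gen h)) := range_gen_mem h 1
    have hF : pF h ∈ Subgroup.closure (Set.range (gen h)) := range_gen_mem h 2
    have hsh : (pT H ^ (k * k))⁻¹ * pF h * pT H ^ (k * k) ∈
        Subgroup.closure (Set.range (gen h)) :=
      mul_mem (mul_mem (inv_mem (pow_mem hT _)) hF) (pow_mem hT _)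
    exact mul_mem (mul_mem (mul_mem hsh hS) (inv_mem hsh)) (inv_mem hS)
  exact h1 hg

/-- the word of the embedded `k`-th member of the sequence -/
def wk (k : ℕ) : List (Fin 3 × Bool) :=
  List.replicate (k * k) (0, false) ++ ((2, true) :: (List.replicate (k * k) (0, true) ++
    ((1, true) :: (List.replicate (k * k) (0, false) ++ ((2, false) ::
      (List.replicate (k * k) (0, true) ++ [(1, false)]))))))

theorem lift_append {α K : Type*} [Group K] (f : α → K) (u v : List (α × Bool)) :
    FreeGroup.lift f (FreeGroup.mk (u ++ v)) =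
      FreeGroup.lift f (FreeGroup.mk u) * FreeGroup.lift f (FreeGroup.mk v) := by
  rw [← FreeGroup.mul_mk, map_mul]

theorem lift_replicate {α K : Type*} [Group K] (f : α → K) (n : ℕ) (a : α) (b : Bool) :
    FreeGroup.lift f (FreeGroup.mk (List.replicate n (a, b))) =
      (if b = true then f a else (f a)⁻¹) ^ n := by
  induction n with
  | zero =>
    rw [List.replicate_zero, ← FreeGroup.one_eq_mk, map_one, pow_zero]
  | succ n ih => rw [List.replicate_succ, lift_cons, ih, pow_succ']

theorem lift_wk {K : Type*} [Group K] (f : Fin 3 → K) (k : ℕ) :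
    FreeGroup.lift f (FreeGroup.mk (wk k)) =
      ((f 0 ^ (k * k))⁻¹ * f 2 * f 0 ^ (k * k)) * f 1 *
        ((f 0 ^ (k * k))⁻¹ * f 2 * f 0 ^ (k * k))⁻¹ * (f 1)⁻¹ := by
  unfold wk
  simp only [lift_append, lift_cons, lift_replicate, Bool.false_eq_true, if_false, if_true,
    ← FreeGroup.one_eq_mk, map_one]
  group

theorem primrec_wk : Primrec wk := by
  have hk : Primrec fun k : ℕ => k * k := Primrec.nat_mul.comp Primrec.id Primrec.id
  have hr : ∀ a : Fin 3 × Bool, Primrec fun k : ℕ => List.replicate (k * k) a := fun a =>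
    CI.replicate.comp hk (Primrec.const a)
  unfold wk
  exact Primrec.list_append.comp (hr _) (Primrec.list_cons.comp (Primrec.const _)
    (Primrec.list_append.comp (hr _) (Primrec.list_cons.comp (Primrec.const _)
      (Primrec.list_append.comp (hr _) (Primrec.list_cons.comp (Primrec.const _)
        (Primrec.list_append.comp (hr _) (Primrec.const _)))))))

/-- A sequence `h` in a group `H` with decidable word problem, all of whose members are mapped
to the generator by one homomorphism to the integers: the subgroup it generates embeds in a group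
generated by three elements with decidable word problem, and the members of the sequence are
given by the words `wk`. -/
theorem exists_three (h : ℕ → H) (χ : H →* Multiplicative ℤ)
    (hχ : ∀ k, χ (h k) = Multiplicative.ofAdd 1)
    (hdec : ComputablePred fun u : List (ℕ × Bool) => FreeGroup.lift h (FreeGroup.mk u) = 1) :
    ∃ (P : Subgroup (Equiv.Perm (X H))) (p : Fin 3 → P),
      Subgroup.closure (Set.range p) = ⊤ ∧
      (ComputablePred fun w : List (Fin 3 × Bool) => FreeGroup.lift p (FreeGroup.mk w) = 1) ∧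
      ∃ φ : Subgroup.closure (Set.range h) →* P, Function.Injective φ ∧
        ∀ (k : ℕ) (hk : h k ∈ Subgroup.closure (Set.range h)),
          φ ⟨h k, hk⟩ = FreeGroup.lift p (FreeGroup.mk (wk k)) := by
  have h1 : ∀ x : FreeGroup (Fin 3), ((FreeGroup.lift fun i =>
      (⟨gen h i, range_gen_mem h i⟩ : Subgroup.closure (Set.range (gen h)))) x :
      Equiv.Perm (X H)) = FreeGroup.lift (gen h) x := by
    intro x
    have h2 : (Subgroup.closure (Set.range (gen h))).subtype.comp (FreeGroup.lift fun i =>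
      (⟨gen h i, range_gen_mem h i⟩ : Subgroup.closure (Set.range (gen h)))) =
        FreeGroup.lift (gen h) := by
      refine FreeGroup.ext_hom _ _ fun i => ?_
      simp
    exact DFunLike.congr_fun h2 x
  refine ⟨Subgroup.closure (Set.range (gen h)), fun i => ⟨gen h i, range_gen_mem h i⟩, ?_, ?_, ?_⟩
  · have hinj : Function.Injective (Subgroup.closure (Set.range (gen h))).subtype :=
      Subgroup.subtype_injective _
    apply Subgroup.map_injective hinj
    rw [MonoidHom.map_closure, ← Set.range_comp, ← MonoidHom.range_eq_map,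
      Subgroup.range_subtype]
    rfl
  · refine (word_computable h χ hχ hdec).of_eq fun w => ?_
    rw [← h1, OneMemClass.coe_eq_one]
  · refine ⟨((iot H).comp (Subgroup.subtype _)).codRestrict _ fun g => iot_mem h g.1 g.2, ?_, ?_⟩
    · intro g g' hg
      have h2 : iot H g.1 = iot H g'.1 := congrArg Subtype.val hg
      exact Subtype.ext (iot_injective h2)
    · intro k hk
      apply Subtype.ext
      rw [h1, lift_wk]
      exact iot_eq h k

end

end Vale.Agent.P193.H870
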