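import Vale.Agent.P193.Defs

namespace Vale.Agent.P193.H870

/-- `P` is a finite presentation with at most `N` generators and at most `N` relators, and the
group that it presents is simple. -/
def SimpleWithin (N : ℕ) (P : Presentation) : Prop :=
  P.1 ≤ N ∧ P.2.length ≤ N ∧ IsSimpleGroup (PGroup P)

/-- The element of the group presented by `P` that is given by the word `w` in the generators. -/
def value (P : Presentation) (w : List (ℕ × Bool)) : PGroup P :=
  PresentedGroup.mk (relators P) (restrict P.1 (FreeGroup.mk w))

end Vale.Agent.P193.H870
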