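import Vale.Agent.P193.H870.Comp

/-!
A uniformly computable family of countable groups embeds in one finitely presented simple group.
-/

namespace Vale.Agent.P193.H870

open Vale.Agent.P193.BH

universe u

/-! ### words -/

/-- the member of the family to which a letter belongs -/
def idx (a : ℕ × Bool) : ℕ := (Nat.unpair (a.1 - 1)).1

/-- the letter seen in the member `i` -/
def lt (i : ℕ) (a : ℕ × Bool) : Option (ℕ × Bool) :=
  if a.1 ≠ 0 ∧ idx a = i then some ((Nat.unpair (a.1 - 1)).2, a.2) else none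

/-- the word seen in the member `i` -/
def prj (i : ℕ) (w : List (ℕ × Bool)) : List (ℕ × Bool) := w.filterMap (lt i)

/-- numbers of positive and of negative letters -/
def cnt (w : List (ℕ × Bool)) : ℕ × ℕ :=
  w.foldr (fun a r => if a.2 = true then (r.1 + 1, r.2) else (r.1, r.2 + 1)) (0, 0)

theorem primrec_idx : Primrec idx := by
  unfold idx
  exact Primrec.fst.comp (Primrec.unpair.comp (Primrec.pred.comp Primrec.fst))

theorem primrec_prj : Primrec₂ prj := by
  apply Primrec₂.mk
  unfold prj
  refine Primrec.listFilterMap (f := fun q : ℕ × List (ℕ × Bool) => q.2)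
    (g := fun q a => lt q.1 a) Primrec.snd ?_
  apply Primrec₂.mk
  unfold lt
  have a : Primrec fun q : (ℕ × List (ℕ × Bool)) × (ℕ × Bool) => q.2 := Primrec.snd
  have i : Primrec fun q : (ℕ × List (ℕ × Bool)) × (ℕ × Bool) => q.1.1 :=
    Primrec.fst.comp Primrec.fst
  refine Primrec.ite (PrimrecPred.and (PrimrecPred.not (PrimrecRel.comp Primrec.eq
    (Primrec.fst.comp a) (Primrec.const 0))) (PrimrecRel.comp Primrec.eq (primrec_idx.comp a) i))
    ?_ (Primrec.const none)
  exact Primrec.option_some.comp (Primrec.pair (Primrec.snd.comp (Primrec.unpair.comp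
    (Primrec.pred.comp (Primrec.fst.comp a)))) (Primrec.snd.comp a))

theorem primrec_cnt : Primrec cnt := by
  unfold cnt
  refine Primrec.list_foldr (f := fun w : List (ℕ × Bool) => w) (g := fun _ => (0, 0))
    (h := fun _ r => if r.1.2 = true then (r.2.1 + 1, r.2.2) else (r.2.1, r.2.2 + 1))
    Primrec.id (Primrec.const (0, 0)) ?_
  apply Primrec₂.mk
  have b : Primrec fun q : List (ℕ × Bool) × (ℕ × Bool) × (ℕ × ℕ) => q.2.1.2 :=
    Primrec.snd.comp (Primrec.fst.comp Primrec.snd)
  have x : Primrec fun q : List (ℕ × Bool) × (ℕ × Bool) × (ℕ × ℕ) => q.2.2.1 :=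
    Primrec.fst.comp (Primrec.snd.comp Primrec.snd)
  have y : Primrec fun q : List (ℕ × Bool) × (ℕ × Bool) × (ℕ × ℕ) => q.2.2.2 :=
    Primrec.snd.comp (Primrec.snd.comp Primrec.snd)
  exact Primrec.ite (PrimrecRel.comp Primrec.eq b (Primrec.const true))
    (Primrec.pair (Primrec.succ.comp x) y) (Primrec.pair x (Primrec.succ.comp y))

theorem prj_cons (i : ℕ) (a : ℕ × Bool) (w : List (ℕ × Bool)) :
    prj i (a :: w) = if a.1 ≠ 0 ∧ idx a = i then
      ((Nat.unpair (a.1 - 1)).2, a.2) :: prj i w else prj i w := by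
  unfold prj
  rw [List.filterMap_cons]
  unfold lt
  by_cases h : a.1 ≠ 0 ∧ idx a = i
  · rw [if_pos h, if_pos h]
  · rw [if_neg h, if_neg h]

/-! ### the sequence -/

variable {G : ℕ → Type u} [∀ i, Group (G i)]

/-- the group that contains everything -/
abbrev Full (G : ℕ → Type u) : Type u := (∀ i, G i) × Multiplicative ℤ

open Classical in
/-- the sequence -/
noncomputable def hh (f : ∀ i, ℕ → G i) (k : ℕ) : Full G :=
  (if k = 0 then 1 else Pi.mulSingle (Nat.unpair (k - 1)).1
    (f (Nat.unpair (k - 1)).1 (Nat.unpair (k - 1)).2), Multiplicative.ofAdd 1)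

theorem hh_fst (f : ∀ i, ℕ → G i) (a : ℕ × Bool) (i : ℕ) : (hh f a.1).1 i =
    if a.1 ≠ 0 ∧ idx a = i then f i (Nat.unpair (a.1 - 1)).2 else 1 := by
  unfold hh idx
  by_cases h0 : a.1 = 0
  · simp [h0]
  · by_cases h1 : (Nat.unpair (a.1 - 1)).1 = i
    · subst h1
      simp [h0]
    · simp only [h0, if_false, ne_eq, not_false_eq_true, h1, and_false]
      exact Pi.mulSingle_eq_of_ne (Ne.symm h1) _

theorem lift_hh_fst (f : ∀ i, ℕ → G i) (w : List (ℕ × Bool)) (i : ℕ) :
    (FreeGroup.lift (hh f) (FreeGroup.mk w)).1 i =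
      FreeGroup.lift (f i) (FreeGroup.mk (prj i w)) := by
  induction w with
  | nil =>
    show (FreeGroup.lift (hh f) (FreeGroup.mk [])).1 i =
      FreeGroup.lift (f i) (FreeGroup.mk [])
    rw [← FreeGroup.one_eq_mk, map_one]
    exact (map_one (FreeGroup.lift (f i))).symm
  | cons a w ih =>
    obtain ⟨k, b⟩ := a
    rw [lift_cons, prj_cons, Prod.fst_mul, Pi.mul_apply, ih]
    have h1 : (if b = true then hh f k else (hh f k)⁻¹).1 i =
        if b = true then (hh f k).1 i else ((hh f k).1 i)⁻¹ := by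
      cases b <;> rfl
    rw [h1, hh_fst f (k, b) i]
    by_cases h : (k, b).1 ≠ 0 ∧ idx (k, b) = i
    · rw [if_pos h, if_pos h, lift_cons]
    · rw [if_neg h, if_neg h]
      cases b <;> simp

theorem lift_hh_snd (f : ∀ i, ℕ → G i) (w : List (ℕ × Bool)) :
    (FreeGroup.lift (hh f) (FreeGroup.mk w)).2 =
      Multiplicative.ofAdd (((cnt w).1 : ℤ) - (cnt w).2) := by
  induction w with
  | nil =>
    rw [← FreeGroup.one_eq_mk, map_one]
    rfl
  | cons a w ih =>
    obtain ⟨k, b⟩ := a
    rw [lift_cons, Prod.snd_mul, ih]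
    have h2 : cnt ((k, b) :: w) = if b = true then ((cnt w).1 + 1, (cnt w).2) else
      ((cnt w).1, (cnt w).2 + 1) := rfl
    rw [h2]
    have h3 : (hh f k).2 = Multiplicative.ofAdd 1 := rfl
    cases b
    · simp only [Bool.false_eq_true, if_false, Prod.snd_inv, h3]
      rw [← ofAdd_neg, ← ofAdd_add]
      congr 1
      push_cast
      ring
    · simp only [if_true, h3]
      rw [← ofAdd_add]
      congr 1
      push_cast
      ring

theorem prj_eq_nil (i : ℕ) (w : List (ℕ × Bool)) (h : ∀ a ∈ w, idx a ≠ i) : prj i w = [] := by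
  induction w with
  | nil => rfl
  | cons a w ih =>
    rw [prj_cons, if_neg fun h0 => h a List.mem_cons_self h0.2]
    exact ih fun b hb => h b (List.mem_cons_of_mem _ hb)

theorem hh_iff (f : ∀ i, ℕ → G i) (w : List (ℕ × Bool)) :
    FreeGroup.lift (hh f) (FreeGroup.mk w) = 1 ↔ (cnt w).1 = (cnt w).2 ∧
      ∀ j < w.length, FreeGroup.lift (f (idx (w.getD j (0, false))))
        (FreeGroup.mk (prj (idx (w.getD j (0, false))) w)) = 1 := by
  constructor
  · intro h
    refine ⟨?_, fun j _ => ?_⟩
    · have h1 := lift_hh_snd f w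
      rw [h] at h1
      have h2 := congrArg Multiplicative.toAdd h1
      have h3 : (0 : ℤ) = ((cnt w).1 : ℤ) - (cnt w).2 := h2
      omega
    · rw [← lift_hh_fst f, h]
      rfl
  · rintro ⟨h1, h2⟩
    refine Prod.ext ?_ ?_
    · funext i
      rw [lift_hh_fst]
      by_cases hi : ∀ a ∈ w, idx a ≠ i
      · rw [prj_eq_nil i w hi, ← FreeGroup.one_eq_mk, map_one]
        rfl
      · push Not at hi
        obtain ⟨a, ha, rfl⟩ := hi
        obtain ⟨j, hj, rfl⟩ := List.getElem_of_mem ha
        have h3 := h2 j hj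
        rw [List.getD_eq_getElem _ _ hj] at h3
        exact h3
    · rw [lift_hh_snd, h1, sub_self]
      rfl

theorem hh_computable (f : ∀ i, ℕ → G i)
    (hdec : ComputablePred fun x : ℕ × List (ℕ × Bool) =>
      FreeGroup.lift (f x.1) (FreeGroup.mk x.2) = 1) :
    ComputablePred fun w : List (ℕ × Bool) => FreeGroup.lift (hh f) (FreeGroup.mk w) = 1 := by
  have h1 : ComputablePred fun w : List (ℕ × Bool) => (cnt w).1 = (cnt w).2 :=
    (PrimrecRel.comp Primrec.eq (Primrec.fst.comp primrec_cnt)
      (Primrec.snd.comp primrec_cnt)).computablePred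
  have h2 : ComputablePred fun w : List (ℕ × Bool) =>
      ∀ j < w.length, FreeGroup.lift (f (idx (w.getD j (0, false))))
        (FreeGroup.mk (prj (idx (w.getD j (0, false))) w)) = 1 := by
    refine CI.pball (p := fun (w : List (ℕ × Bool)) j =>
      FreeGroup.lift (f (idx (w.getD j (0, false))))
        (FreeGroup.mk (prj (idx (w.getD j (0, false))) w)) = 1) ?_ Primrec.list_length.to_comp
    have hi : Primrec fun x : List (ℕ × Bool) × ℕ => idx (x.1.getD x.2 (0, false)) :=
      primrec_idx.comp ((Primrec.list_getD (0, false)).comp Primrec.fst Primrec.snd)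
    exact CI.pcomp (p := fun x : ℕ × List (ℕ × Bool) =>
      FreeGroup.lift (f x.1) (FreeGroup.mk x.2) = 1) hdec
      (f := fun x : List (ℕ × Bool) × ℕ => (idx (x.1.getD x.2 (0, false)),
        prj (idx (x.1.getD x.2 (0, false))) x.1))
      (Primrec.pair hi (primrec_prj.comp hi Primrec.fst)).to_comp
  exact (CI.pand h1 h2).of_eq fun w => (hh_iff f w).symm

/-! ### the members of the family -/

open Classical in
theorem single_eq (f : ∀ i, ℕ → G i) (i j : ℕ) :
    ((MonoidHom.inl (∀ i, G i) (Multiplicative ℤ)).comp (MonoidHom.mulSingle G i)) (f i j) =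
      hh f (Nat.pair i j + 1) * (hh f 0)⁻¹ := by
  refine Prod.ext ?_ ?_
  · show Pi.mulSingle i (f i j) = (hh f (Nat.pair i j + 1)).1 * ((hh f 0).1)⁻¹
    have h3 : ∀ q : ℕ × ℕ, q = (i, j) →
        Pi.mulSingle i (f i j) = (Pi.mulSingle q.1 (f q.1 q.2) : ∀ i, G i) := by
      rintro _ rfl
      rfl
    unfold hh
    simp only [Nat.succ_ne_zero, if_false, if_true, inv_one, mul_one]
    exact h3 _ (Nat.unpair_pair i j)
  · show (1 : Multiplicative ℤ) = (hh f (Nat.pair i j + 1)).2 * ((hh f 0).2)⁻¹
    unfold hh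
    simp

theorem hh_mem (f : ∀ i, ℕ → G i) (k : ℕ) : hh f k ∈ Subgroup.closure (Set.range (hh f)) :=
  Subgroup.subset_closure ⟨k, rfl⟩

open Classical in
theorem single_mem (f : ∀ i, ℕ → G i) (i : ℕ) (g : G i)
    (hg : g ∈ Subgroup.closure (Set.range (f i))) :
    ((MonoidHom.inl (∀ i, G i) (Multiplicative ℤ)).comp (MonoidHom.mulSingle G i)) g ∈
      Subgroup.closure (Set.range (hh f)) := by
  have h1 : Subgroup.closure (Set.range (f i)) ≤ (Subgroup.closure (Set.range (hh f))).comap
      ((MonoidHom.inl (∀ i, G i) (Multiplicative ℤ)).comp (MonoidHom.mulSingle G i)) := by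
    rw [Subgroup.closure_le]
    rintro _ ⟨j, rfl⟩
    show ((MonoidHom.inl (∀ i, G i) (Multiplicative ℤ)).comp (MonoidHom.mulSingle G i)) (f i j) ∈
      Subgroup.closure (Set.range (hh f))
    rw [single_eq]
    exact mul_mem (hh_mem f _) (inv_mem (hh_mem f _))
  exact h1 hg

/-- the word of the embedded member `f i j` -/
def wf (i j : ℕ) : List (Fin 3 × Bool) := wk (Nat.pair i j + 1) ++ FreeGroup.invRev (wk 0)

theorem primrec_wf : Primrec₂ wf := by
  apply Primrec₂.mk
  unfold wf
  exact Primrec.list_append.comp (primrec_wk.comp (Primrec.succ.comp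
    (Primrec₂.natPair.comp Primrec.fst Primrec.snd))) (Primrec.const _)

/-- A uniformly computable family of countable groups embeds in one group generated by three
elements with decidable word problem. -/
theorem family_three (f : ∀ i, ℕ → G i) (hf : ∀ i, Subgroup.closure (Set.range (f i)) = ⊤)
    (hdec : ComputablePred fun x : ℕ × List (ℕ × Bool) =>
      FreeGroup.lift (f x.1) (FreeGroup.mk x.2) = 1) :
    ∃ (P : Type u) (_ : Group P) (p : Fin 3 → P),
      Subgroup.closure (Set.range p) = ⊤ ∧
      (ComputablePred fun w : List (Fin 3 × Bool) => FreeGroup.lift p (FreeGroup.mk w) = 1) ∧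
      ∃ φ : ∀ i, G i →* P, (∀ i, Function.Injective (φ i)) ∧
        ∀ i j, φ i (f i j) = FreeGroup.lift p (FreeGroup.mk (wf i j)) := by
  classical
  obtain ⟨P, p, hp1, hp2, φ, hφ, hφ'⟩ := exists_three (hh f) (MonoidHom.snd _ _) (fun k => rfl)
    (hh_computable f hdec)
  have hmem : ∀ (i : ℕ) (g : G i),
      ((MonoidHom.inl (∀ i, G i) (Multiplicative ℤ)).comp (MonoidHom.mulSingle G i)) g ∈
      Subgroup.closure (Set.range (hh f)) := fun i g => single_mem f i g (by rw [hf i]; trivial)
  refine ⟨P, inferInstance, p, hp1, hp2, fun i => φ.comp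
    (((MonoidHom.inl (∀ i, G i) (Multiplicative ℤ)).comp
      (MonoidHom.mulSingle G i)).codRestrict _ (hmem i)), fun i => ?_, fun i j => ?_⟩
  · rw [MonoidHom.coe_comp]
    refine hφ.comp ?_
    intro g g' hg
    have h1 := congrArg (fun x : Subgroup.closure (Set.range (hh f)) => x.1.1 i) hg
    have h2 : (Pi.mulSingle i g : ∀ i, G i) i = (Pi.mulSingle i g' : ∀ i, G i) i := h1
    rwa [Pi.mulSingle_eq_same, Pi.mulSingle_eq_same] at h2
  · have h1 : ((((MonoidHom.inl (∀ i, G i) (Multiplicative ℤ)).comp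
        (MonoidHom.mulSingle G i)).codRestrict _ (hmem i)) (f i j)) =
        (⟨hh f (Nat.pair i j + 1), hh_mem f _⟩ : Subgroup.closure (Set.range (hh f))) *
          (⟨hh f 0, hh_mem f 0⟩ : Subgroup.closure (Set.range (hh f)))⁻¹ :=
      Subtype.ext (single_eq f i j)
    rw [MonoidHom.comp_apply, h1, map_mul, map_inv, hφ', hφ']
    unfold wf
    rw [lift_append, ← FreeGroup.inv_mk, map_inv]

/-! ### substitution of words -/

/-- substitution of the words `v a` for the letters `a` -/
def subst {α β : Type*} (v : α → List (β × Bool)) (w : List (α × Bool)) : List (β × Bool) :=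
  w.flatMap fun a => cond a.2 (v a.1) (FreeGroup.invRev (v a.1))

theorem subst_cons {α β : Type*} (v : α → List (β × Bool)) (a : α × Bool)
    (w : List (α × Bool)) :
    subst v (a :: w) = cond a.2 (v a.1) (FreeGroup.invRev (v a.1)) ++ subst v w := rfl

theorem lift_subst {α β K : Type*} [Group K] (k : β → K) (v : α → List (β × Bool))
    (w : List (α × Bool)) : FreeGroup.lift k (FreeGroup.mk (subst v w)) =
      FreeGroup.lift (fun a => FreeGroup.lift k (FreeGroup.mk (v a))) (FreeGroup.mk w) := by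
  induction w with
  | nil =>
    show FreeGroup.lift k (FreeGroup.mk []) = FreeGroup.lift _ (FreeGroup.mk [])
    rw [← FreeGroup.one_eq_mk, map_one]
    exact (map_one (FreeGroup.lift _)).symm
  | cons a w ih =>
    obtain ⟨a, b⟩ := a
    rw [subst_cons, lift_append, ih, lift_cons]
    cases b
    · simp only [cond_false, Bool.false_eq_true, if_false]
      rw [← FreeGroup.inv_mk, map_inv]
    · simp only [cond_true, if_true]

end Vale.Agent.P193.H870

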