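import Vale.Agent.P193.H870.Main

/-!
Recursively presented simple groups, and families of finite presentations of simple groups.
-/

namespace Vale.Agent.P193.H870

open Vale.Agent.P193.BH

universe u

/-! ### stages of recursively enumerable predicates -/

theorem exists_stage {α : Type*} [Primcodable α] {p : α → Prop} (hp : REPred p) :
    ∃ R : α × ℕ → Prop, ComputablePred R ∧ ∀ a, p a ↔ ∃ n, R (a, n) := by
  obtain ⟨c, hc⟩ := Nat.Partrec.Code.exists_code.1 hp
  refine ⟨fun x => (Nat.Partrec.Code.evaln x.2 c (Encodable.encode x.1)).isSome = true, ?_, ?_⟩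
  · have h1 : Primrec fun x : α × ℕ =>
        (Nat.Partrec.Code.evaln x.2 c (Encodable.encode x.1)).isSome :=
      Primrec.option_isSome.comp (Nat.Partrec.Code.primrec_evaln.comp (Primrec.pair
        (Primrec.pair Primrec.snd (Primrec.const c)) (Primrec.encode.comp Primrec.fst)))
    exact (PrimrecRel.comp Primrec.eq h1 (Primrec.const true)).computablePred
  · intro a
    have h1 : (Nat.Partrec.Code.eval c (Encodable.encode a)).Dom ↔ p a := by
      rw [hc]
      simp only [Encodable.encodek, Part.coe_some, Part.bind_some, Part.map_Dom]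
      exact ⟨fun h => h.1, fun h => ⟨h, trivial⟩⟩
    rw [← h1, Part.dom_iff_mem]
    constructor
    · rintro ⟨y, hy⟩
      obtain ⟨k, hk⟩ := Nat.Partrec.Code.evaln_complete.1 hy
      exact ⟨k, Option.isSome_iff_exists.2 ⟨y, hk⟩⟩
    · rintro ⟨k, hk⟩
      obtain ⟨y, hy⟩ := Option.isSome_iff_exists.1 hk
      exact ⟨y, Nat.Partrec.Code.evaln_complete.2 ⟨k, hy⟩⟩

/-! ### certificates in simple groups -/

section

variable {α : Type} {G : Type u} [Group G]

/-- product of conjugates of a word and its inverse -/
def cw (w : List (α × Bool)) (d : List (List (α × Bool) × Bool)) : List (α × Bool) :=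
  d.flatMap fun e => e.1 ++ (cond e.2 w (FreeGroup.invRev w) ++ FreeGroup.invRev e.1)

/-- the value of a certificate -/
def cval (f : α → G) (w : List (α × Bool)) (d : List (List (α × Bool) × Bool)) : G :=
  FreeGroup.lift f (FreeGroup.mk (cw w d))

theorem lift_invRev (f : α → G) (w : List (α × Bool)) :
    FreeGroup.lift f (FreeGroup.mk (FreeGroup.invRev w)) =
      (FreeGroup.lift f (FreeGroup.mk w))⁻¹ := by
  rw [← FreeGroup.inv_mk, map_inv]

theorem cval_nil (f : α → G) (w : List (α × Bool)) : cval f w [] = 1 :=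
  map_one (FreeGroup.lift f)

theorem cval_append (f : α → G) (w : List (α × Bool)) (d d' : List (List (α × Bool) × Bool)) :
    cval f w (d ++ d') = cval f w d * cval f w d' := by
  unfold cval cw
  rw [List.flatMap_append, lift_append]

theorem cval_single (f : α → G) (w c : List (α × Bool)) (b : Bool) :
    cval f w [(c, b)] = FreeGroup.lift f (FreeGroup.mk c) *
      (cond b (FreeGroup.lift f (FreeGroup.mk w)) (FreeGroup.lift f (FreeGroup.mk w))⁻¹ *
        (FreeGroup.lift f (FreeGroup.mk c))⁻¹) := by
  unfold cval cw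
  rw [List.flatMap_singleton, lift_append, lift_append, lift_invRev]
  cases b
  · rw [cond_false, cond_false, lift_invRev]
  · rw [cond_true, cond_true]

theorem cval_inv (f : α → G) (w : List (α × Bool)) (d : List (List (α × Bool) × Bool)) :
    ∃ d', cval f w d' = (cval f w d)⁻¹ := by
  induction d with
  | nil => exact ⟨[], by rw [cval_nil, inv_one]⟩
  | cons e d ih =>
    obtain ⟨d', hd'⟩ := ih
    obtain ⟨c, b⟩ := e
    refine ⟨d' ++ [(c, !b)], ?_⟩
    have h1 : cval f w ((c, b) :: d) = cval f w [(c, b)] * cval f w d := by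
      rw [← cval_append]; rfl
    rw [cval_append, hd', h1, mul_inv_rev, cval_single, cval_single]
    congr 1
    cases b
    · simp [mul_assoc]
    · simp [mul_assoc]

theorem cval_conj (f : α → G) (w u : List (α × Bool)) (d : List (List (α × Bool) × Bool)) :
    cval f w (d.map fun e => (u ++ e.1, e.2)) =
      FreeGroup.lift f (FreeGroup.mk u) * cval f w d * (FreeGroup.lift f (FreeGroup.mk u))⁻¹ := by
  induction d with
  | nil => rw [List.map_nil, cval_nil, mul_one, mul_inv_cancel]
  | cons e d ih =>
    obtain ⟨c, b⟩ := e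
    have h1 : cval f w ((c, b) :: d) = cval f w [(c, b)] * cval f w d := by
      rw [← cval_append]; rfl
    have h2 : cval f w (((c, b) :: d).map fun e => (u ++ e.1, e.2)) =
        cval f w [(u ++ c, b)] * cval f w (d.map fun e => (u ++ e.1, e.2)) := by
      rw [← cval_append]; rfl
    rw [h2, ih, h1, cval_single, cval_single, lift_append]
    group

theorem exists_word {f : α → G} (hf : Subgroup.closure (Set.range f) = ⊤) (g : G) :
    ∃ w : List (α × Bool), FreeGroup.lift f (FreeGroup.mk w) = g := by
  have h1 : g ∈ (FreeGroup.lift f).range := by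
    rw [FreeGroup.range_lift_eq_closure, hf]
    trivial
  obtain ⟨x, hx⟩ := h1
  obtain ⟨w, rfl⟩ := Quot.exists_rep x
  exact ⟨w, hx⟩

/-- in a simple group every element is a product of conjugates of a given nontrivial one -/
theorem exists_cert (hs : IsSimpleGroup G) {f : α → G}
    (hf : Subgroup.closure (Set.range f) = ⊤) {w : List (α × Bool)}
    (hw : FreeGroup.lift f (FreeGroup.mk w) ≠ 1) (g : G) : ∃ d, cval f w d = g := by
  let N : Subgroup G :=
    { carrier := {x | ∃ d, cval f w d = x}
      mul_mem' := by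
        rintro x y ⟨d, rfl⟩ ⟨d', rfl⟩
        exact ⟨d ++ d', cval_append f w d d'⟩
      one_mem' := ⟨[], cval_nil f w⟩
      inv_mem' := by
        rintro x ⟨d, rfl⟩
        exact cval_inv f w d }
  have hN : N.Normal := by
    constructor
    rintro x ⟨d, rfl⟩ g
    obtain ⟨u, rfl⟩ := exists_word hf g
    exact ⟨_, cval_conj f w u d⟩
  have hmem : FreeGroup.lift f (FreeGroup.mk w) ∈ N := by
    refine ⟨[([], true)], ?_⟩
    rw [cval_single]
    have h1 : FreeGroup.lift f (FreeGroup.mk []) = 1 := map_one (FreeGroup.lift f)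
    rw [h1]
    simp
  rcases hN.eq_bot_or_eq_top with h | h
  · rw [h, Subgroup.mem_bot] at hmem
    exact absurd hmem hw
  · have h1 : g ∈ N := by rw [h]; trivial
    exact h1

end

/-! ### the word problem in recursively presented simple groups -/

theorem primrec_cw {α : Type} [Primcodable α] :
    Primrec₂ (cw : List (α × Bool) → List (List (α × Bool) × Bool) → List (α × Bool)) := by
  apply Primrec₂.mk
  unfold cw
  refine Primrec.list_flatMap Primrec.snd ?_
  apply Primrec₂.mk
  have w : Primrec fun p : (List (α × Bool) × List (List (α × Bool) × Bool)) ×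
      (List (α × Bool) × Bool) => p.1.1 := Primrec.fst.comp Primrec.fst
  have c : Primrec fun p : (List (α × Bool) × List (List (α × Bool) × Bool)) ×
      (List (α × Bool) × Bool) => p.2.1 := Primrec.fst.comp Primrec.snd
  have b : Primrec fun p : (List (α × Bool) × List (List (α × Bool) × Bool)) ×
      (List (α × Bool) × Bool) => p.2.2 := Primrec.snd.comp Primrec.snd
  exact Primrec.list_append.comp c (Primrec.list_append.comp
    (Primrec.cond b w (primrec_invRev'.comp w)) (primrec_invRev'.comp c))

/-- Kuznetsov's theorem, for families: in a family of simple groups with uniformly enumerable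
word problems and with given nontrivial words, the word problems are uniformly decidable. -/
theorem simple_dec {ι α : Type} [Primcodable ι] [Primcodable α] {G : ι → Type u}
    [∀ i, Group (G i)] (f : ∀ i, α → G i) (hf : ∀ i, Subgroup.closure (Set.range (f i)) = ⊤)
    (hs : ∀ i, IsSimpleGroup (G i)) (R : (ι × List (α × Bool)) × ℕ → Prop)
    (hR : ComputablePred R)
    (hRi : ∀ x : ι × List (α × Bool), FreeGroup.lift (f x.1) (FreeGroup.mk x.2) = 1 ↔
      ∃ n, R (x, n))
    (a : ι → List (α × Bool)) (ha : Computable a)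
    (hne : ∀ i, FreeGroup.lift (f i) (FreeGroup.mk (a i)) ≠ 1) :
    ComputablePred fun x : ι × List (α × Bool) =>
      FreeGroup.lift (f x.1) (FreeGroup.mk x.2) = 1 := by
  classical
  -- the stage test
  let dc : ℕ → List (List (α × Bool) × Bool) := fun s =>
    (Encodable.decode (Nat.unpair s).1 : Option (List (List (α × Bool) × Bool))).getD []
  let T : ι × List (α × Bool) → ℕ → Prop := fun x s =>
    R (x, s) ∨ R ((x.1, FreeGroup.invRev (a x.1) ++ cw x.2 (dc s)), (Nat.unpair s).2)
  have hdc : Primrec dc :=
    Primrec.option_getD.comp (Primrec.decode.comp (Primrec.fst.comp Primrec.unpair))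
      (Primrec.const [])
  have hT : ComputablePred fun q : (ι × List (α × Bool)) × ℕ => T q.1 q.2 := by
    refine CI.por hR (CI.pcomp hR ?_)
    have hi : Computable fun q : (ι × List (α × Bool)) × ℕ => q.1.1 :=
      (Primrec.fst.comp Primrec.fst).to_comp
    have hw : Primrec fun q : (ι × List (α × Bool)) × ℕ => q.1.2 :=
      Primrec.snd.comp Primrec.fst
    refine Computable.pair (Computable.pair hi ?_)
      (Primrec.snd.comp (Primrec.unpair.comp Primrec.snd)).to_comp
    exact Primrec.list_append.to_comp.comp (primrec_invRev'.to_comp.comp (ha.comp hi))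
      (primrec_cw.comp hw (hdc.comp Primrec.snd)).to_comp
  have hno : ∀ (x : ι × List (α × Bool)) (s : ℕ),
      FreeGroup.lift (f x.1) (FreeGroup.mk x.2) = 1 →
      ¬ R ((x.1, FreeGroup.invRev (a x.1) ++ cw x.2 (dc s)), (Nat.unpair s).2) := by
    intro x s h1 h2
    have h3 := (hRi (x.1, FreeGroup.invRev (a x.1) ++ cw x.2 (dc s))).2 ⟨_, h2⟩
    have h4 : FreeGroup.lift (f x.1) (FreeGroup.mk (cw x.2 (dc s))) = 1 := by
      show cval (f x.1) x.2 (dc s) = 1
      generalize dc s = d
      induction d with
      | nil => exact cval_nil _ _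
      | cons e d ih =>
        obtain ⟨c, b⟩ := e
        have h1' : cval (f x.1) x.2 ((c, b) :: d) =
            cval (f x.1) x.2 [(c, b)] * cval (f x.1) x.2 d := by
          rw [← cval_append]; rfl
        rw [h1', ih, cval_single, h1]
        cases b <;> simp
    have h5 : FreeGroup.lift (f x.1)
        (FreeGroup.mk (FreeGroup.invRev (a x.1) ++ cw x.2 (dc s))) = 1 := h3
    rw [lift_append, h4, mul_one, lift_invRev, inv_eq_one] at h5
    exact hne x.1 h5
  have hex : ∀ x, ∃ s, T x s := by
    intro x
    by_cases hx : FreeGroup.lift (f x.1) (FreeGroup.mk x.2) = 1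
    · obtain ⟨s, hs'⟩ := (hRi x).1 hx
      exact ⟨s, Or.inl hs'⟩
    · obtain ⟨d, hd⟩ := exists_cert (hs x.1) (hf x.1) hx
        (FreeGroup.lift (f x.1) (FreeGroup.mk (a x.1)))
      have h1 : FreeGroup.lift (f x.1)
          (FreeGroup.mk (FreeGroup.invRev (a x.1) ++ cw x.2 d)) = 1 := by
        rw [lift_append, lift_invRev]
        have h2 : FreeGroup.lift (f x.1) (FreeGroup.mk (cw x.2 d)) =
          FreeGroup.lift (f x.1) (FreeGroup.mk (a x.1)) := hd
        rw [h2, inv_mul_cancel]
      obtain ⟨n, hn⟩ := (hRi (x.1, FreeGroup.invRev (a x.1) ++ cw x.2 d)).1 h1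
      refine ⟨Nat.pair (Encodable.encode d) n, Or.inr ?_⟩
      have h3 : dc (Nat.pair (Encodable.encode d) n) = d := by
        simp only [dc, Nat.unpair_pair, Encodable.encodek, Option.getD_some]
      rw [h3, Nat.unpair_pair]
      exact hn
  have hfind : Computable fun x => Nat.find (hex x) := Computable.find (P := T) hT hex
  have hd : ComputablePred fun x : ι × List (α × Bool) => R (x, Nat.find (hex x)) :=
    CI.pcomp hR (Computable.pair Computable.id hfind)
  refine hd.of_eq fun x => ?_
  constructor
  · intro h1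
    exact (hRi x).2 ⟨_, h1⟩
  · intro h1
    rcases Nat.find_spec (hex x) with h2 | h2
    · exact h2
    · exact absurd h2 (hno x _ h1)

/-- Higman's embedding theorem in the class of simple groups. -/
theorem simple_iff_re {n : ℕ} {S : Type u} [Group S] (hS : IsSimpleGroup S) (f : Fin n → S)
    (hf : Subgroup.closure (Set.range f) = ⊤) :
    (REPred fun w : List (Fin n × Bool) => FreeGroup.lift f (FreeGroup.mk w) = 1) ↔
      ∃ (K : Type) (_ : Group K), IsSimpleGroup K ∧ Group.IsFinitelyPresented K ∧
        ∃ ψ : S →* K, Function.Injective ψ := by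
  constructor
  · intro hre
    obtain ⟨R, hR, hRi⟩ := exists_stage hre
    obtain ⟨g, hg⟩ := exists_ne (1 : S)
    obtain ⟨a, ha⟩ := exists_word hf g
    have h1 := simple_dec (ι := Unit) (α := Fin n) (G := fun _ => S) (fun _ => f) (fun _ => hf)
      (fun _ => hS) (fun q => R (q.1.2, q.2))
      (CI.pcomp hR (Computable.pair (Computable.snd.comp Computable.fst) Computable.snd))
      (fun x => hRi x.2) (fun _ => a) (Computable.const a) (fun _ => by rw [ha]; exact hg)
    have h2 : ComputablePred fun w : List (Fin n × Bool) =>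
        FreeGroup.lift f (FreeGroup.mk w) = 1 :=
      CI.pcomp h1 (f := fun w : List (Fin n × Bool) => (((), w) : Unit × List (Fin n × Bool)))
        (Computable.pair (Computable.const ()) Computable.id)
    exact booneHigman f hf h2
  · rintro ⟨K, _, hK1, hK2, ψ, hψ⟩
    exact (converse f K hK1 hK2 ψ hψ).to_re

/-- A recursively enumerable set of finite presentations of simple groups is bounded. -/
theorem re_bounded (S : Set Presentation) (hre : REPred fun P => P ∈ S)
    (hS : ∀ P ∈ S, IsSimpleGroup (PGroup P)) :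
    ∃ Q, IsSimpleGroup (PGroup Q) ∧ ∀ P ∈ S, Embeds (PGroup P) (PGroup Q) := by
  classical
  rcases S.eq_empty_or_nonempty with rfl | ⟨P₀, hP₀⟩
  · obtain ⟨K, _, hK1, hK2, -⟩ := booneHigman (n := 0) (G := Unit) (fun _ => ())
      (by ext x; simp) (ComputablePred.computable_iff.2 ⟨fun _ => true, Computable.const true,
        funext fun w => propext ⟨fun _ => rfl, fun _ => Subsingleton.elim _ _⟩⟩)
    obtain ⟨Q, ⟨e⟩⟩ := exists_code K hK2
    exact ⟨Q, simple_of_equiv e hK1, by simp⟩
  -- an enumeration of `S`
  obtain ⟨R, hR, hRi⟩ := exists_stage hre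
  obtain ⟨r, hr, hrR⟩ := ComputablePred.computable_iff.1 hR
  let c : ℕ → Presentation := fun k =>
    Option.casesOn (Encodable.decode k : Option (Presentation × ℕ)) P₀
      (fun x => cond (r x) x.1 P₀)
  have hc : Computable c := by
    refine Computable.option_casesOn Primrec.decode.to_comp (Computable.const P₀) ?_
    refine Computable.cond (hr.comp Computable.snd) (Computable.fst.comp Computable.snd)
      (Computable.const P₀)
  have hrx : ∀ x, r x = true ↔ R x := fun x => by
    have := congrFun hrR x
    rw [this]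
  have hcS : ∀ k, c k ∈ S := by
    intro k
    show (Option.casesOn (Encodable.decode k : Option (Presentation × ℕ)) P₀
      (fun x => cond (r x) x.1 P₀) : Presentation) ∈ S
    cases h : (Encodable.decode k : Option (Presentation × ℕ)) with
    | none => exact hP₀
    | some x =>
      show cond (r x) x.1 P₀ ∈ S
      cases h' : r x with
      | false => exact hP₀
      | true => exact (hRi x.1).2 ⟨x.2, (hrx x).1 h'⟩
  have hcr : ∀ P ∈ S, ∃ k, c k = P := by
    intro P hP
    obtain ⟨n, hn⟩ := (hRi P).1 hP
    refine ⟨Encodable.encode (P, n), ?_⟩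
    show (Option.casesOn (Encodable.decode (Encodable.encode (P, n)) :
      Option (Presentation × ℕ)) P₀ (fun x => cond (r x) x.1 P₀) : Presentation) = P
    rw [Encodable.encodek]
    show cond (r (P, n)) P P₀ = P
    rw [(hrx _).2 hn]
    rfl
  have hsimple : ∀ k, IsSimpleGroup (PGroup (c k)) := fun k => hS _ (hcS k)
  -- nontrivial words
  let D : ℕ → ℕ → Prop := fun i t =>
    Triv (addRel (c i) (genW (Nat.unpair t).1)) (Nat.unpair t).2
  have hD : ComputablePred fun q : ℕ × ℕ => D q.1 q.2 := by
    refine CI.pcomp (p := fun z : Presentation × ℕ => Triv z.1 z.2)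
      (f := fun q : ℕ × ℕ => (addRel (c q.1) (genW (Nat.unpair q.2).1), (Nat.unpair q.2).2))
      (PrimrecPred.computablePred primrec_Triv) ?_
    have hci : Computable fun q : ℕ × ℕ => c q.1 := hc.comp Computable.fst
    have hj : Primrec fun q : ℕ × ℕ => genW (Nat.unpair q.2).1 :=
      Primrec.list_cons.comp (Primrec.pair (Primrec.fst.comp (Primrec.unpair.comp Primrec.snd))
        (Primrec.const true)) (Primrec.const [])
    exact Computable.pair (Computable.pair (Computable.fst.comp hci)
      (Primrec.list_cons.to_comp.comp hj.to_comp (Computable.snd.comp hci)))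
      (Primrec.snd.comp (Primrec.unpair.comp Primrec.snd)).to_comp
  have hDex : ∀ i, ∃ t, D i t := by
    intro i
    obtain ⟨j, hj⟩ := exists_gen_ne_one (c i) (hsimple i)
    obtain ⟨y, hy⟩ := (triv_iff (addRel (c i) (genW j))).2
      fun j' => ev_addRel_of_ne_one (c i) (hsimple i) _ _ hj
    refine ⟨Nat.pair j y, ?_⟩
    show Triv (addRel (c i) (genW (Nat.unpair (Nat.pair j y)).1)) (Nat.unpair (Nat.pair j y)).2
    rw [Nat.unpair_pair]
    exact hy
  have hfind : Computable fun i => Nat.find (hDex i) := Computable.find (P := D) hD hDex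
  let a : ℕ → Wd := fun i => genW (Nat.unpair (Nat.find (hDex i))).1
  have ha : Computable a := by
    have hj : Primrec fun q : ℕ => genW (Nat.unpair q).1 :=
      Primrec.list_cons.comp (Primrec.pair (Primrec.fst.comp Primrec.unpair)
        (Primrec.const true)) (Primrec.const [])
    exact hj.to_comp.comp hfind
  have hane : ∀ i, Vale.Agent.P193.ev (c i) (a i) ≠ 1 := by
    intro i h1
    have h2 := (triv_iff _).1 ⟨_, Nat.find_spec (hDex i)⟩
    obtain ⟨j, hj⟩ := exists_gen_ne_one (c i) (hsimple i)
    exact hj (ev_addRel_of_eq_one (c i) _ _ h1 (h2 j))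
  -- the family
  let f : ∀ i, ℕ → PGroup (c i) := fun i j => Vale.Agent.P193.ev (c i) (genW j)
  have hfi : ∀ i w, Vale.Agent.P193.ev (c i) w = FreeGroup.lift (f i) (FreeGroup.mk w) :=
    fun i w => ev_eq_lift (c i) w
  have hf : ∀ i, Subgroup.closure (Set.range (f i)) = ⊤ := by
    intro i
    rw [← FreeGroup.range_lift_eq_closure, MonoidHom.range_eq_top]
    intro g
    obtain ⟨w, rfl⟩ := ev_surj (c i) g
    exact ⟨FreeGroup.mk w, (hfi i w).symm⟩
  have hdec := simple_dec f hf hsimple (fun q => Stage ((c q.1.1, q.1.2), q.2))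
    (CI.pcomp (PrimrecPred.computablePred primrec_Stage) (Computable.pair (Computable.pair
      (hc.comp (Computable.fst.comp Computable.fst)) (Computable.snd.comp Computable.fst))
      Computable.snd)) (fun x => by rw [← hfi]; exact ev_eq_one_iff_stage _ _) a ha
      (fun i => by rw [← hfi]; exact hane i)
  obtain ⟨K, _, _, _, _, ψ, hK1, hK2, -, -, hψ⟩ := (family_iff f hf).1 hdec
  obtain ⟨Q, ⟨e⟩⟩ := exists_code K hK2
  refine ⟨Q, simple_of_equiv e hK1, fun P hP => ?_⟩
  obtain ⟨k, rfl⟩ := hcr P hP
  exact ⟨e.toMonoidHom.comp (ψ k), e.injective.comp (hψ k).1⟩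

/-! ### the complexity of simplicity -/

theorem booneHigman' : BooneHigman := by
  intro G _ hG
  obtain ⟨k, g, hg, hdec⟩ := hG
  obtain ⟨K, hK, hK1, hK2, hK3⟩ := booneHigman g hg hdec
  exact ⟨K, hK, hK2, hK1, hK3⟩

theorem not_sigma : ¬ IsSigma2 {P | IsSimpleGroup (PGroup P)} := bh_not_sigma booneHigman'

theorem not_cofinal (S : Set Presentation) (h2 : IsSigma2 S)
    (hS : ∀ P ∈ S, IsSimpleGroup (PGroup P)) :
    ∃ Q, IsSimpleGroup (PGroup Q) ∧ ∀ P ∈ S, ¬ Embeds (PGroup Q) (PGroup P) :=
  bh_consequence booneHigman' S h2 hS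

end Vale.Agent.P193.H870
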