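import Vale.Agent.P193.H870.BddMach
import Vale.Agent.P193.H870.Simple
import Vale.Agent.P193.H870.Defs

/-!
The final statements: one bound `N` for the numbers of generators and relators.
-/

namespace Vale.Agent.P193.H870

open Vale.Agent.P193.BH

universe u

/-! ### bounded presentations as codes -/

theorem exists_list (n : ℕ) (s : Set (FreeGroup (Fin n))) (hs : s.Finite) :
    ∃ l : List Wd, l.length = s.ncard ∧ relators (n, l) = s := by
  refine ⟨hs.toFinset.toList.map fun x => (incl n x).toWord, ?_, ?_⟩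
  · rw [List.length_map, Finset.length_toList, Set.ncard_eq_toFinset_card s hs]
  · ext x
    constructor
    · rintro ⟨w, hw, hx⟩
      obtain ⟨y, hy, rfl⟩ := List.mem_map.1 hw
      rw [Finset.mem_toList, Set.Finite.mem_toFinset] at hy
      have : x = y := by
        rw [hx]
        show restrict n (FreeGroup.mk (incl n y).toWord) = y
        rw [FreeGroup.mk_toWord, restrict_incl]
      rw [this]; exact hy
    · intro hx
      refine ⟨(incl n x).toWord, ?_, ?_⟩
      · refine List.mem_map.2 ⟨x, ?_, rfl⟩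
        rw [Finset.mem_toList, Set.Finite.mem_toFinset]
        exact hx
      · show x = restrict n (FreeGroup.mk (incl n x).toWord)
        rw [FreeGroup.mk_toWord, restrict_incl]

theorem GPB.exists_presentation {N : ℕ} {K : Type*} [Group K] (h : GPB N K) :
    ∃ P : Presentation, P.1 ≤ N ∧ P.2.length ≤ N ∧ Nonempty (K ≃* PGroup P) := by
  obtain ⟨α, hα, π, s, h1, h2, h3, h4, h5⟩ := h
  let e : α ≃ Fin (Nat.card α) := Finite.equivFin α
  let c : FreeGroup α ≃* FreeGroup (Fin (Nat.card α)) := FreeGroup.freeGroupCongr e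
  have hsf : (c '' s).Finite := h2.image _
  obtain ⟨l, hl1, hl2⟩ := exists_list (Nat.card α) (c '' s) hsf
  let π' : FreeGroup (Fin (Nat.card α)) →* K := π.comp c.symm.toMonoidHom
  have hπ' : Function.Surjective π' := h1.comp c.symm.surjective
  have hker : π'.ker = Subgroup.normalClosure (c '' s) := by
    have e1 : Subgroup.normalClosure (c '' s) = (Subgroup.normalClosure s).map c.toMonoidHom :=
      (Subgroup.map_normalClosure s c.toMonoidHom c.surjective).symm
    rw [e1, ← h3]
    ext x
    constructor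
    · intro hx
      exact ⟨c.symm x, hx, c.apply_symm_apply x⟩
    · rintro ⟨y, hy, rfl⟩
      show π (c.symm (c y)) = 1
      rw [c.symm_apply_apply]
      exact hy
  refine ⟨(Nat.card α, l), h4, ?_, ⟨?_⟩⟩
  · show l.length ≤ N
    rw [hl1]
    exact (Set.ncard_image_le h2).trans h5
  · have e1 : (FreeGroup (Fin (Nat.card α)) ⧸ π'.ker) ≃* K :=
      QuotientGroup.quotientKerEquivOfSurjective _ hπ'
    exact e1.symm.trans (QuotientGroup.quotientMulEquivOfEq (by rw [hker, hl2]))

/-! ### the absolute bound -/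

/-- the absolute bound -/
noncomputable def NB : ℕ := (exists_bound.{0} 3).choose

theorem three_bound {G : Type u} [Group G] (f : Fin 3 → G)
    (hf : Subgroup.closure (Set.range f) = ⊤)
    (hdec : ComputablePred fun w : List (Fin 3 × Bool) =>
      FreeGroup.lift f (FreeGroup.mk w) = 1) :
    ∃ P : Presentation, SimpleWithin NB P ∧ ∃ ψ : G →* PGroup P, Function.Injective ψ := by
  have hsurj : Function.Surjective (FreeGroup.lift f) := by
    rw [← MonoidHom.range_eq_top, FreeGroup.range_lift_eq_closure, hf]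
  let e : (FreeGroup (Fin 3) ⧸ (FreeGroup.lift f).ker) ≃* G :=
    QuotientGroup.quotientKerEquivOfSurjective _ hsurj
  let q : FreeGroup (Fin 3) →* FreeGroup (Fin 3) ⧸ (FreeGroup.lift f).ker := QuotientGroup.mk' _
  let f' : Fin 3 → FreeGroup (Fin 3) ⧸ (FreeGroup.lift f).ker := fun i => q (FreeGroup.of i)
  have hq : FreeGroup.lift f' = q := by
    refine FreeGroup.ext_hom _ _ fun i => ?_
    simp [f']
  have hf' : Subgroup.closure (Set.range f') = ⊤ := by
    rw [← FreeGroup.range_lift_eq_closure, hq, MonoidHom.range_eq_top]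
    exact QuotientGroup.mk'_surjective _
  have hq1 : ∀ x : FreeGroup (Fin 3), FreeGroup.lift f x = 1 ↔ FreeGroup.lift f' x = 1 := by
    intro x
    rw [hq]
    exact (MonoidHom.mem_ker (f := FreeGroup.lift f)).symm.trans
      (QuotientGroup.eq_one_iff (N := (FreeGroup.lift f).ker) x).symm
  obtain ⟨K, _, hK1, hK2, χ, hχ⟩ := (exists_bound.{0} 3).choose_spec
    (FreeGroup (Fin 3) ⧸ (FreeGroup.lift f).ker) f' hf' (hdec.of_eq fun w => hq1 _)
  obtain ⟨P, hP1, hP2, ⟨e'⟩⟩ := hK2.exists_presentation
  refine ⟨P, ⟨hP1, hP2, simple_of_equiv e' hK1⟩,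
    (e'.toMonoidHom.comp χ).comp e.symm.toMonoidHom, ?_⟩
  exact (e'.injective.comp hχ).comp e.symm.injective

theorem value_eq (P : Presentation) (w : Wd) : value P w = Vale.Agent.P193.ev P w := rfl

theorem value_append (P : Presentation) (u v : Wd) :
    value P (u ++ v) = value P u * value P v := Vale.Agent.P193.ev_append P u v

/-- The exact characterisation, with the absolute bound. -/
theorem family_bound {G : ℕ → Type u} [∀ i, Group (G i)] (f : ∀ i, ℕ → G i)
    (hf : ∀ i, Subgroup.closure (Set.range (f i)) = ⊤) :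
    (ComputablePred fun x : ℕ × List (ℕ × Bool) =>
      FreeGroup.lift (f x.1) (FreeGroup.mk x.2) = 1) ↔
    ∃ (P : Presentation) (W : ℕ → ℕ → List (ℕ × Bool)) (ψ : ∀ i, G i →* PGroup P),
      SimpleWithin NB P ∧ Computable₂ W ∧
        ∀ i, Function.Injective (ψ i) ∧ ∀ j, ψ i (f i j) = value P (W i j) := by
  constructor
  · intro hdec
    obtain ⟨P, _, p, hp1, hp2, φ, hφ, hφ'⟩ := family_three f hf hdec
    obtain ⟨Q, hQ, χ, hχ⟩ := three_bound p hp1 hp2
    have hv : ∀ a : Fin 3, ∃ v : Wd, Vale.Agent.P193.ev Q v = χ (p a) := fun a => ev_surj Q _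
    choose v hv using hv
    refine ⟨Q, fun i j => subst v (wf i j), fun i => χ.comp (φ i), hQ, ?_,
      fun i => ⟨hχ.comp (hφ i), fun j => ?_⟩⟩
    · apply Computable₂.mk
      have hs : Primrec fun w : List (Fin 3 × Bool) => subst v w := by
        unfold subst
        refine Primrec.list_flatMap Primrec.id ?_
        apply Primrec₂.mk
        exact ((Primrec.dom_finite fun a : Fin 3 × Bool =>
          cond a.2 (v a.1) (FreeGroup.invRev (v a.1))).comp Primrec.snd)
      exact (hs.comp (primrec_wf.comp Primrec.fst Primrec.snd)).to_comp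
    · rw [MonoidHom.comp_apply, hφ', value_eq, ev_eq_lift, lift_subst]
      have h1 : (fun a => FreeGroup.lift (fun j => Vale.Agent.P193.ev Q (genW j))
          (FreeGroup.mk (v a))) = fun a => χ (p a) := by
        funext a
        rw [← ev_eq_lift, hv]
      rw [h1]
      have h2 : (FreeGroup.lift fun a => χ (p a)) = χ.comp (FreeGroup.lift p) := by
        refine FreeGroup.ext_hom _ _ fun i => ?_
        simp
      rw [h2]
      rfl
  · rintro ⟨P, W, ψ, hP, hW, hψ⟩
    have h1 := kuznetsov P hP.2.2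
    have h2 : Computable fun x : ℕ × List (ℕ × Bool) => subst (W x.1) x.2 :=
      computable_subst 0 (W := fun (x : ℕ × List (ℕ × Bool)) j => W x.1 j)
        (hW.comp (Computable.fst.comp Computable.fst) Computable.snd) Computable.snd
    refine (CI.pcomp h1 h2).of_eq fun x => ?_
    obtain ⟨i, w⟩ := x
    show Vale.Agent.P193.ev P (subst (W i) w) = 1 ↔ FreeGroup.lift (f i) (FreeGroup.mk w) = 1
    rw [ev_eq_lift, lift_subst]
    have h3 : (fun j => FreeGroup.lift (fun j => Vale.Agent.P193.ev P (genW j))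
        (FreeGroup.mk (W i j))) = fun j => ψ i (f i j) := by
      funext j
      rw [(hψ i).2 j, value_eq, ev_eq_lift]
    rw [h3]
    have h4 : (FreeGroup.lift fun j => ψ i (f i j)) = (ψ i).comp (FreeGroup.lift (f i)) := by
      refine FreeGroup.ext_hom _ _ fun j => ?_
      simp
    rw [h4]
    show ψ i (FreeGroup.lift (f i) (FreeGroup.mk w)) = 1 ↔ _
    rw [map_eq_one_iff (ψ i) (hψ i).1]

/-- the sequence of generators of a group with finitely many generators -/
def ext {n : ℕ} {G : Type u} [Group G] (f : Fin n → G) (j : ℕ) : G :=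
  if h : j < n then f ⟨j, h⟩ else 1

theorem closure_ext {n : ℕ} {G : Type u} [Group G] (f : Fin n → G)
    (hf : Subgroup.closure (Set.range f) = ⊤) : Subgroup.closure (Set.range (ext f)) = ⊤ := by
  rw [eq_top_iff, ← hf]
  apply Subgroup.closure_mono
  rintro _ ⟨i, rfl⟩
  refine ⟨i.1, ?_⟩
  unfold ext
  rw [dif_pos i.2]

/-- deletion of the letters `j ≥ n` -/
def cut (n : ℕ) (a : ℕ × Bool) : Option (Fin n × Bool) :=
  if h : a.1 < n then some (⟨a.1, h⟩, a.2) else none

theorem lift_ext {n : ℕ} {G : Type u} [Group G] (f : Fin n → G) (w : List (ℕ × Bool)) :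
    FreeGroup.lift (ext f) (FreeGroup.mk w) =
      FreeGroup.lift f (FreeGroup.mk (w.filterMap (cut n))) := by
  induction w with
  | nil =>
    rw [List.filterMap_nil, ← FreeGroup.one_eq_mk, map_one]
    exact (map_one (FreeGroup.lift f)).symm
  | cons a w ih =>
    obtain ⟨j, b⟩ := a
    rw [lift_cons, ih, List.filterMap_cons]
    by_cases h : j < n
    · have h1 : cut n (j, b) = some (⟨j, h⟩, b) := dif_pos h
      have h2 : ext f j = f ⟨j, h⟩ := dif_pos h
      rw [h1, h2]
      simp only
      rw [lift_cons]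
    · have h1 : cut n (j, b) = none := dif_neg h
      have h2 : ext f j = 1 := dif_neg h
      rw [h1, h2]
      cases b <;> simp

theorem primrec_cut (n : ℕ) : Primrec (cut n) := by
  have h1 : Primrec fun a : ℕ × Bool => ((List.finRange n)[a.1]?).map (fun i => (i, a.2)) := by
    refine Primrec.option_map (Primrec.list_getElem?.comp (Primrec.const (List.finRange n))
      Primrec.fst) ?_
    apply Primrec₂.mk
    exact Primrec.pair Primrec.snd (Primrec.snd.comp Primrec.fst)
  refine h1.of_eq fun a => ?_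
  unfold cut
  by_cases h : a.1 < n
  · rw [dif_pos h, List.getElem?_eq_getElem (by rw [List.length_finRange]; exact h)]
    simp
  · rw [dif_neg h, List.getElem?_eq_none (by rw [List.length_finRange]; omega)]
    rfl

theorem relators_finite (P : Presentation) : (relators P).Finite := by
  refine ((List.finite_toSet P.2).image fun w => restrict P.1 (FreeGroup.mk w)).subset ?_
  rintro r ⟨w, hw, rfl⟩
  exact ⟨w, hw, rfl⟩

theorem PGroup_fp (P : Presentation) : Group.IsFinitelyPresented (PGroup P) := by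
  have := (relators_finite P).to_subtype
  infer_instance

/-- The characterisation for groups with finitely many generators, with the absolute bound. -/
theorem fg_bound {n : ℕ} {G : Type u} [Group G] (f : Fin n → G)
    (hf : Subgroup.closure (Set.range f) = ⊤) :
    (ComputablePred fun w : List (Fin n × Bool) => FreeGroup.lift f (FreeGroup.mk w) = 1) ↔
      ∃ P : Presentation, SimpleWithin NB P ∧ ∃ ψ : G →* PGroup P, Function.Injective ψ := by
  constructor
  · intro hdec
    have h1 : ComputablePred fun x : ℕ × List (ℕ × Bool) =>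
        FreeGroup.lift (ext f) (FreeGroup.mk x.2) = 1 := by
      have h2 : Primrec fun x : ℕ × List (ℕ × Bool) => x.2.filterMap (cut n) := by
        refine Primrec.listFilterMap Primrec.snd ?_
        exact ((primrec_cut n).comp Primrec.snd).to₂
      refine (CI.pcomp hdec h2.to_comp).of_eq fun x => ?_
      rw [lift_ext]
    obtain ⟨P, W, ψ, hP, -, hψ⟩ := (family_bound (G := fun _ => G) (fun _ => ext f)
      (fun _ => closure_ext f hf)).1 h1
    exact ⟨P, hP, ψ 0, (hψ 0).1⟩
  · rintro ⟨P, hP, ψ, hψ⟩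
    exact converse f (PGroup P) hP.2.2 (PGroup_fp P) ψ hψ

theorem fg_bound' {n : ℕ} {G : Type u} [Group G] (f : Fin n → G)
    (hf : Subgroup.closure (Set.range f) = ⊤)
    (h : ∃ (K : Type) (_ : Group K), IsSimpleGroup K ∧ Group.IsFinitelyPresented K ∧
        ∃ ψ : G →* K, Function.Injective ψ) :
    ∃ P : Presentation, SimpleWithin NB P ∧ ∃ ψ : G →* PGroup P, Function.Injective ψ := by
  obtain ⟨K, _, hK1, hK2, ψ, hψ⟩ := h
  exact (fg_bound f hf).1 (converse f K hK1 hK2 ψ hψ)

/-- Higman's embedding theorem for simple groups, with the absolute bound. -/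
theorem simple_bound {n : ℕ} {S : Type u} [Group S] (f : Fin n → S)
    (hf : Subgroup.closure (Set.range f) = ⊤) (hS : IsSimpleGroup S) :
    (REPred fun w : List (Fin n × Bool) => FreeGroup.lift f (FreeGroup.mk w) = 1) ↔
      ∃ P : Presentation, SimpleWithin NB P ∧ ∃ ψ : S →* PGroup P, Function.Injective ψ := by
  constructor
  · intro h
    exact fg_bound' f hf ((simple_iff_re hS f hf).1 h)
  · intro h
    exact ((fg_bound f hf).2 h).to_re

/-- a presentation as a group with finitely many generators -/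
theorem embed_bound (P : Presentation) (hP : IsSimpleGroup (PGroup P)) :
    ∃ Q, SimpleWithin NB Q ∧ Embeds (PGroup P) (PGroup Q) := by
  obtain ⟨Q, hQ, ψ, hψ⟩ := fg_bound' (fun j : Fin P.1 => (PresentedGroup.of j : PGroup P))
    (PresentedGroup.closure_range_of _)
    ⟨PGroup P, inferInstance, hP, PGroup_fp P, MonoidHom.id _, fun _ _ h => h⟩
  exact ⟨Q, hQ, ψ, hψ⟩

/-- A recursively enumerable set of finite presentations of simple groups has an upper bound. -/
theorem re_bound (S : Set Presentation) (hS : ∀ P ∈ S, IsSimpleGroup (PGroup P))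
    (hre : REPred fun P => P ∈ S) :
    ∃ Q, SimpleWithin NB Q ∧ ∀ P ∈ S, Embeds (PGroup P) (PGroup Q) := by
  obtain ⟨Q, hQ, h1⟩ := re_bounded S hre hS
  obtain ⟨Q', hQ', h2⟩ := embed_bound Q hQ
  exact ⟨Q', hQ', fun P hP => embeds_trans (h1 P hP) h2⟩

/-- A `Sigma^0_2` set of finite presentations of simple groups is not cofinal. -/
theorem sigma_bound (S : Set Presentation) (hS : ∀ P ∈ S, IsSimpleGroup (PGroup P))
    (h2 : IsSigma2 S) :
    ∃ Q, SimpleWithin NB Q ∧ ∀ P ∈ S, ¬ Embeds (PGroup Q) (PGroup P) := by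
  obtain ⟨Q, hQ, h1⟩ := not_cofinal S h2 hS
  obtain ⟨Q', hQ', h3⟩ := embed_bound Q hQ
  exact ⟨Q', hQ', fun P hP h => h1 P hP (embeds_trans h3 h)⟩

theorem pi_two_within (N : ℕ) : IsPi2 {P | SimpleWithin N P} := by
  obtain ⟨R, hR, h⟩ := simple_pi_two
  refine ⟨fun q => (q.1.1 ≤ N ∧ q.1.2.length ≤ N) ∧ R q, ?_, fun P => ?_⟩
  · refine CI.pand (PrimrecPred.computablePred (PrimrecPred.and ?_ ?_)) hR
    · exact PrimrecRel.comp Primrec.nat_le (Primrec.fst.comp Primrec.fst) (Primrec.const N)
    · exact PrimrecRel.comp Primrec.nat_le (Primrec.list_length.comp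
        (Primrec.snd.comp Primrec.fst)) (Primrec.const N)
  · have h' : IsSimpleGroup (PGroup P) ↔ ∀ x, ∃ y, R (P, x, y) := h P
    show (P.1 ≤ N ∧ P.2.length ≤ N ∧ IsSimpleGroup (PGroup P)) ↔ _
    rw [h']
    constructor
    · rintro ⟨h1, h2, h3⟩ x
      obtain ⟨y, hy⟩ := h3 x
      exact ⟨y, ⟨h1, h2⟩, hy⟩
    · intro h1
      obtain ⟨y, hy, -⟩ := h1 0
      refine ⟨hy.1, hy.2, fun x => ?_⟩
      obtain ⟨y, -, hy⟩ := h1 x
      exact ⟨y, hy⟩

theorem not_sigma_within : ¬ IsSigma2 {P | SimpleWithin NB P} := by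
  intro h
  obtain ⟨Q, hQ, h1⟩ := sigma_bound _ (fun P hP => hP.2.2) h
  exact h1 Q hQ ⟨MonoidHom.id _, fun _ _ h => h⟩

end Vale.Agent.P193.H870
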