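import Vale.Agent.P193.Bdl.B3

/-!
A group of permutations generated by three elements, attached to a sequence of elements of a
group `H`. It contains the subgroup generated by the sequence, and its word problem is decidable
if the word problem of the sequence is.
-/

namespace Vale.Agent.P193.H870

/-! ### squares -/

/-- the root of a square -/
def rt (n : ℤ) : ℕ := Nat.sqrt n.toNat

/-- `n` is a square -/
def IsSq (n : ℤ) : Prop := ((rt n : ℕ) : ℤ) * (rt n : ℕ) = n

instance (n : ℤ) : Decidable (IsSq n) := by unfold IsSq; infer_instance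

theorem rt_sq (k : ℕ) : rt ((k : ℤ) * k) = k := by
  unfold rt
  have : ((k : ℤ) * k).toNat = k * k := by
    rw [← Nat.cast_mul, Int.toNat_natCast]
  rw [this, Nat.sqrt_eq]

theorem isSq_sq (k : ℕ) : IsSq ((k : ℤ) * k) := by
  unfold IsSq
  rw [rt_sq]

theorem not_isSq {k L : ℕ} (hk : L + 1 ≤ k) {d : ℤ} (h1 : -(2 * L : ℤ) ≤ d) (h2 : d ≤ 2 * L)
    (hd : d ≠ 0) : ¬ IsSq ((k : ℤ) * k + d) := by
  unfold IsSq
  generalize rt ((k : ℤ) * k + d) = j
  intro h
  have hk' : (L : ℤ) + 1 ≤ k := by exact_mod_cast hk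
  have hj0 : (0 : ℤ) ≤ j := Int.natCast_nonneg j
  rcases lt_trichotomy (j : ℤ) (k : ℤ) with hlt | heq | hgt
  · nlinarith
  · rw [heq] at h
    apply hd
    linarith
  · nlinarith

/-! ### the permutations -/

section perms

variable {H : Type*} [Group H]

/-- the set on which the group acts -/
abbrev X (H : Type*) := ℤ × ℤ × H

/-- the element by which the third permutation multiplies -/
def vl (h : ℕ → H) (n m : ℤ) : H := if 0 ≤ m ∧ IsSq n then h (rt n) else 1

/-- first permutation -/
def pT (H : Type*) : Equiv.Perm (X H) where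
  toFun p := (p.1 + 1, p.2.1, p.2.2)
  invFun p := (p.1 - 1, p.2.1, p.2.2)
  left_inv p := by simp
  right_inv p := by simp

/-- second permutation -/
def pS (H : Type*) : Equiv.Perm (X H) where
  toFun p := (p.1, p.2.1 + (if p.1 = 0 then 1 else 0), p.2.2)
  invFun p := (p.1, p.2.1 - (if p.1 = 0 then 1 else 0), p.2.2)
  left_inv p := by simp
  right_inv p := by simp

/-- third permutation -/
def pF (h : ℕ → H) : Equiv.Perm (X H) where
  toFun p := (p.1, p.2.1, vl h p.1 p.2.1 * p.2.2)
  invFun p := (p.1, p.2.1, (vl h p.1 p.2.1)⁻¹ * p.2.2)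
  left_inv p := by simp
  right_inv p := by simp

/-- the generators -/
def gen (h : ℕ → H) (i : Fin 3) : Equiv.Perm (X H) :=
  if i = 0 then pT H else if i = 1 then pS H else pF h

/-- the action of a letter -/
def stepX (h : ℕ → H) (l : Fin 3 × Bool) (p : X H) : X H :=
  if l.1 = 0 then (p.1 + (if l.2 = true then 1 else -1), p.2.1, p.2.2)
  else if l.1 = 1 then
    (p.1, p.2.1 + (if p.1 = 0 then (if l.2 = true then 1 else -1) else 0), p.2.2)
  else (p.1, p.2.1, (if l.2 = true then vl h p.1 p.2.1 else (vl h p.1 p.2.1)⁻¹) * p.2.2)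

theorem stepX_eq (h : ℕ → H) (l : Fin 3 × Bool) (p : X H) :
    (cond l.2 (gen h l.1) (gen h l.1)⁻¹ : Equiv.Perm (X H)) p = stepX h l p := by
  obtain ⟨i, b⟩ := l
  obtain ⟨n, m, x⟩ := p
  fin_cases i <;> cases b
  · show (n - 1, m, x) = _
    simp [stepX, sub_eq_add_neg]
  · show (n + 1, m, x) = _
    simp [stepX]
  · show (n, m - (if n = 0 then 1 else 0), x) = _
    by_cases hn : n = 0 <;> simp [stepX, hn, sub_eq_add_neg]
  · show (n, m + (if n = 0 then 1 else 0), x) = _
    simp [stepX]
  · show (n, m, (vl h n m)⁻¹ * x) = _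
    simp [stepX]
  · show (n, m, vl h n m * x) = _
    simp [stepX]

/-- the action of a word -/
def act (h : ℕ → H) (w : List (Fin 3 × Bool)) (p : X H) : X H := w.foldr (stepX h) p

theorem act_cons (h : ℕ → H) (l : Fin 3 × Bool) (w : List (Fin 3 × Bool)) (p : X H) :
    act h (l :: w) p = stepX h l (act h w p) := rfl

theorem lift_apply (h : ℕ → H) (w : List (Fin 3 × Bool)) (p : X H) :
    (FreeGroup.lift (gen h) (FreeGroup.mk w)) p = act h w p := by
  induction w with
  | nil =>
    rw [← FreeGroup.one_eq_mk, map_one]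
    rfl
  | cons l w ih =>
    rw [act_cons, ← ih, ← stepX_eq]
    rw [FreeGroup.lift_mk, FreeGroup.lift_mk]
    rw [List.map_cons, List.prod_cons, Equiv.Perm.mul_apply]

theorem act_mul (h : ℕ → H) (w : List (Fin 3 × Bool)) (n m : ℤ) (x y : H) :
    act h w (n, m, x * y) = ((act h w (n, m, x)).1, (act h w (n, m, x)).2.1,
      (act h w (n, m, x)).2.2 * y) := by
  induction w with
  | nil => rfl
  | cons l w ih =>
    rw [act_cons, act_cons, ih]
    unfold stepX
    split_ifs <;> simp [mul_assoc]

/-! ### the tails -/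

theorem act_fst (h : ℕ → H) (w : List (Fin 3 × Bool)) :
    ∃ A : ℤ, -(w.length : ℤ) ≤ A ∧ A ≤ w.length ∧ ∀ p : X H, (act h w p).1 = p.1 + A := by
  induction w with
  | nil => exact ⟨0, by simp, by simp, fun p => by simp [act]⟩
  | cons l w ih =>
    obtain ⟨A, h1, h2, h3⟩ := ih
    by_cases hl : l.1 = 0
    · refine ⟨A + (if l.2 = true then 1 else -1), ?_, ?_, ?_⟩
      · rw [List.length_cons]; push_cast; split_ifs <;> linarith
      · rw [List.length_cons]; push_cast; split_ifs <;> linarith
      · intro p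
        rw [act_cons]
        simp only [stepX, hl, if_true]
        rw [h3 p, add_assoc]
    · refine ⟨A, ?_, ?_, ?_⟩
      · rw [List.length_cons]; push_cast; linarith
      · rw [List.length_cons]; push_cast; linarith
      · intro p
        rw [act_cons, ← h3 p]
        unfold stepX
        rw [if_neg hl]
        split_ifs <;> rfl

theorem tail_pos (h : ℕ → H) (w : List (Fin 3 × Bool)) (n : ℤ) (x : H) :
    ∃ (n₁ μ : ℤ) (x₁ : H), -(w.length : ℤ) ≤ μ ∧
      ∀ m : ℤ, (w.length : ℤ) ≤ m → act h w (n, m, x) = (n₁, m + μ, x₁) := by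
  induction w with
  | nil => exact ⟨n, 0, x, by simp, fun m _ => by simp [act]⟩
  | cons l w ih =>
    obtain ⟨n₁, μ, x₁, h1, h2⟩ := ih
    have hlen : ((l :: w).length : ℤ) = w.length + 1 := by rw [List.length_cons]; push_cast; rfl
    rw [hlen]
    by_cases hl : l.1 = 0
    · refine ⟨n₁ + (if l.2 = true then 1 else -1), μ, x₁, by linarith, fun m hm => ?_⟩
      rw [act_cons, h2 m (by linarith)]
      simp [stepX, hl]
    by_cases hl' : l.1 = 1
    · refine ⟨n₁, μ + (if n₁ = 0 then (if l.2 = true then 1 else -1) else 0), x₁, ?_,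
        fun m hm => ?_⟩
      · split_ifs <;> linarith
      · rw [act_cons, h2 m (by linarith)]
        simp [stepX, hl', add_assoc]
    · refine ⟨n₁, μ, (if l.2 = true then vl h n₁ 0 else (vl h n₁ 0)⁻¹) * x₁, by linarith,
        fun m hm => ?_⟩
      rw [act_cons, h2 m (by linarith)]
      have hv : vl h n₁ (m + μ) = vl h n₁ 0 := by
        have h0 : 0 ≤ m + μ := by linarith
        simp [vl, h0]
      simp [stepX, hl, hl', hv]

theorem tail_neg (h : ℕ → H) (w : List (Fin 3 × Bool)) (n : ℤ) (x : H) :
    ∃ (n₁ μ : ℤ) (x₁ : H), μ ≤ (w.length : ℤ) ∧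
      ∀ m : ℤ, m < -(w.length : ℤ) → act h w (n, m, x) = (n₁, m + μ, x₁) := by
  induction w with
  | nil => exact ⟨n, 0, x, by simp, fun m _ => by simp [act]⟩
  | cons l w ih =>
    obtain ⟨n₁, μ, x₁, h1, h2⟩ := ih
    have hlen : ((l :: w).length : ℤ) = w.length + 1 := by rw [List.length_cons]; push_cast; rfl
    rw [hlen]
    by_cases hl : l.1 = 0
    · refine ⟨n₁ + (if l.2 = true then 1 else -1), μ, x₁, by linarith, fun m hm => ?_⟩
      rw [act_cons, h2 m (by linarith)]
      simp [stepX, hl]
    by_cases hl' : l.1 = 1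
    · refine ⟨n₁, μ + (if n₁ = 0 then (if l.2 = true then 1 else -1) else 0), x₁, ?_,
        fun m hm => ?_⟩
      · split_ifs <;> linarith
      · rw [act_cons, h2 m (by linarith)]
        simp [stepX, hl', add_assoc]
    · refine ⟨n₁, μ, x₁, by linarith, fun m hm => ?_⟩
      rw [act_cons, h2 m (by linarith)]
      have hv : vl h n₁ (m + μ) = 1 := by
        have h0 : ¬ 0 ≤ m + μ := by linarith
        simp [vl, h0]
      simp [stepX, hl, hl', hv]

theorem tail_free (h : ℕ → H) (L : ℕ) (n : ℤ)
    (hn : ∀ j : ℤ, -(L : ℤ) ≤ j → j ≤ L → ¬ IsSq (n + j)) (w : List (Fin 3 × Bool))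
    (hw : w.length ≤ L) (m : ℤ) (x : H) :
    ∃ A : ℤ, -(w.length : ℤ) ≤ A ∧ A ≤ w.length ∧ act h w (n, m, x) = (n + A, m, x) := by
  induction w with
  | nil => exact ⟨0, by simp, by simp, by simp [act]⟩
  | cons l w ih =>
    have hlen : ((l :: w).length : ℤ) = w.length + 1 := by rw [List.length_cons]; push_cast; rfl
    rw [List.length_cons] at hw
    obtain ⟨A, h1, h2, h3⟩ := ih (by omega)
    rw [hlen]
    have hw' : (w.length : ℤ) + 1 ≤ L := by exact_mod_cast hw
    have hs : ¬ IsSq (n + A) := hn A (by linarith) (by linarith)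
    have h0 : n + A ≠ 0 := by
      intro h0
      apply hs
      rw [h0]
      exact isSq_sq 0
    by_cases hl : l.1 = 0
    · refine ⟨A + (if l.2 = true then 1 else -1), ?_, ?_, ?_⟩
      · split_ifs <;> linarith
      · split_ifs <;> linarith
      · rw [act_cons, h3]
        simp [stepX, hl, add_assoc]
    by_cases hl' : l.1 = 1
    · refine ⟨A, by linarith, by linarith, ?_⟩
      rw [act_cons, h3]
      simp [stepX, hl', h0]
    · refine ⟨A, by linarith, by linarith, ?_⟩
      rw [act_cons, h3]
      have hv : vl h (n + A) m = 1 := by simp [vl, hs]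
      simp [stepX, hl, hl', hv]

theorem tail_one (h : ℕ → H) (L : ℕ) (s : ℤ) (hs1 : -(L : ℤ) ≤ s) (hs2 : s ≤ L)
    (w : List (Fin 3 × Bool)) (hw : w.length ≤ L) :
    ∃ A E : ℤ, -(w.length : ℤ) ≤ A ∧ A ≤ w.length ∧ ∀ k : ℕ, L + 1 ≤ k → ∀ (m : ℤ) (x : H),
      act h w ((k : ℤ) * k - s, m, x) =
        ((k : ℤ) * k - s + A, m, (if 0 ≤ m then h k ^ E else 1) * x) := by
  induction w with
  | nil => exact ⟨0, 0, by simp, by simp, by simp [act]⟩
  | cons l w ih =>
    have hlen : ((l :: w).length : ℤ) = w.length + 1 := by rw [List.length_cons]; push_cast; rfl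
    rw [List.length_cons] at hw
    obtain ⟨A, E, h1, h2, h3⟩ := ih (by omega)
    rw [hlen]
    have hw' : (w.length : ℤ) + 1 ≤ L := by exact_mod_cast hw
    by_cases hl : l.1 = 0
    · refine ⟨A + (if l.2 = true then 1 else -1), E, ?_, ?_, ?_⟩
      · split_ifs <;> linarith
      · split_ifs <;> linarith
      · intro k hk m x
        rw [act_cons, h3 k hk]
        simp [stepX, hl, add_assoc]
    by_cases hl' : l.1 = 1
    · refine ⟨A, E, by linarith, by linarith, ?_⟩
      intro k hk m x
      rw [act_cons, h3 k hk]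
      have hk' : (L : ℤ) + 1 ≤ k := by exact_mod_cast hk
      have h0 : (k : ℤ) * k - s + A ≠ 0 := by
        have : (0 : ℤ) < (k : ℤ) * k - s + A := by nlinarith
        exact this.ne'
      simp [stepX, hl', h0]
    by_cases hAs : A = s
    · refine ⟨A, (if l.2 = true then 1 else -1) + E, by linarith, by linarith, ?_⟩
      intro k hk m x
      rw [act_cons, h3 k hk]
      have hpos : (k : ℤ) * k - s + A = (k : ℤ) * k := by rw [hAs]; ring
      rw [hpos]
      have hv : vl h ((k : ℤ) * k) m = if 0 ≤ m then h k else 1 := by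
        simp [vl, isSq_sq, rt_sq]
      by_cases hm : 0 ≤ m
      · by_cases hb : l.2 = true
        · simp [stepX, hl, hl', hv, hm, hb, zpow_add, mul_assoc]
        · simp [stepX, hl, hl', hv, hm, hb, zpow_add, mul_assoc]
      · simp [stepX, hl, hl', hv, hm]
    · refine ⟨A, E, by linarith, by linarith, ?_⟩
      intro k hk m x
      rw [act_cons, h3 k hk]
      have hsq : ¬ IsSq ((k : ℤ) * k - s + A) := by
        have := not_isSq (k := k) (L := L) hk (d := A - s) (by linarith) (by linarith)
          (sub_ne_zero.2 hAs)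
        have he : (k : ℤ) * k - s + A = (k : ℤ) * k + (A - s) := by ring
        rwa [he]
      have hv : vl h ((k : ℤ) * k - s + A) m = 1 := by simp [vl, hsq]
      simp [stepX, hl, hl', hv]

/-! ### a finite criterion -/

/-- the range of the first coordinate of the test points -/
def bd (l : ℕ) : ℕ := (l + 1) * (l + 1) + l

theorem act_criterion (h : ℕ → H) (χ : H →* Multiplicative ℤ)
    (hχ : ∀ k, χ (h k) = Multiplicative.ofAdd 1) (w : List (Fin 3 × Bool))
    (ht : ∀ n m : ℤ, -(bd w.length : ℤ) ≤ n → n ≤ bd w.length → -((w.length : ℤ) + 1) ≤ m →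
      m ≤ (w.length : ℤ) + 1 → act h w (n, m, 1) = (n, m, 1)) (p : X H) : act h w p = p := by
  have hlen0 : (0 : ℤ) ≤ w.length := Int.natCast_nonneg _
  have hbd0 : (0 : ℤ) ≤ bd w.length := Int.natCast_nonneg _
  -- the first coordinate is never moved
  have hA : ∀ q : X H, (act h w q).1 = q.1 := by
    obtain ⟨A, -, -, h3⟩ := act_fst h w
    have h4 := h3 (0, 0, 1)
    rw [ht 0 0 (by linarith) hbd0 (by linarith) (by linarith)] at h4
    have h5 : A = 0 := by simpa using h4.symm
    intro q
    rw [h3 q, h5, add_zero]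
  -- all first coordinates
  have hN : ∀ n m : ℤ, -((w.length : ℤ) + 1) ≤ m → m ≤ (w.length : ℤ) + 1 →
      act h w (n, m, 1) = (n, m, 1) := by
    intro n m hm1 hm2
    by_cases hn : -(bd w.length : ℤ) ≤ n ∧ n ≤ bd w.length
    · exact ht n m hn.1 hn.2 hm1 hm2
    by_cases hsq : ∀ j : ℤ, -(w.length : ℤ) ≤ j → j ≤ w.length → ¬ IsSq (n + j)
    · obtain ⟨A, -, -, h3⟩ := tail_free h w.length n hsq w le_rfl m 1
      have h4 := hA (n, m, 1)
      rw [h3] at h4
      have h4' : n + A = n := h4
      rw [h3, h4']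
    · push Not at hsq
      obtain ⟨s, hs1, hs2, hs⟩ := hsq
      obtain ⟨A, E, -, -, h3⟩ := tail_one h w.length s hs1 hs2 w le_rfl
      obtain ⟨k, hk⟩ : ∃ k : ℕ, (k : ℤ) * k = n + s := ⟨_, hs⟩
      have hbdz : (bd w.length : ℤ) = ((w.length : ℤ) + 1) * (w.length + 1) + w.length := by
        unfold bd; push_cast; ring
      have hk0 : (0 : ℤ) ≤ k := Int.natCast_nonneg k
      have hkL : w.length + 1 ≤ k := by
        have hn' : (bd w.length : ℤ) < n := by
          by_contra hcon
          apply hn
          refine ⟨?_, by linarith⟩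
          nlinarith
        by_contra hcon
        have h5 : (k : ℤ) < (w.length : ℤ) + 1 := by
          have : k < w.length + 1 := by omega
          exact_mod_cast this
        nlinarith
      have hnk : n = (k : ℤ) * k - s := by linarith
      -- the test point
      have hT := h3 (w.length + 1) le_rfl m 1
      have hc : ((w.length + 1 : ℕ) : ℤ) = (w.length : ℤ) + 1 := by push_cast; rfl
      rw [hc] at hT
      rw [ht _ m (by nlinarith) (by nlinarith) hm1 hm2] at hT
      have hA0 : A = 0 := by
        have := congrArg Prod.fst hT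
        simp only at this
        linarith
      have hE0 : (if 0 ≤ m then h (w.length + 1) ^ E else 1) * (1 : H) = 1 := by
        have := congrArg (fun q : X H => q.2.2) hT
        exact this.symm
      rw [hnk, h3 k hkL m 1, hA0, add_zero]
      by_cases hm : 0 ≤ m
      · rw [if_pos hm, mul_one] at hE0
        have h6 := congrArg χ hE0
        rw [map_zpow, hχ, map_one χ, ← ofAdd_zsmul] at h6
        have h7 : E = 0 := by
          have h8 := congrArg Multiplicative.toAdd h6
          simpa using h8
        rw [if_pos hm, h7, zpow_zero, one_mul]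
      · rw [if_neg hm, one_mul]
  -- all second coordinates
  have hM : ∀ n m : ℤ, act h w (n, m, 1) = (n, m, 1) := by
    intro n m
    by_cases hm1 : -((w.length : ℤ) + 1) ≤ m
    · by_cases hm2 : m ≤ (w.length : ℤ) + 1
      · exact hN n m hm1 hm2
      · obtain ⟨n₁, μ, x₁, -, h3⟩ := tail_pos h w n 1
        have h4 := h3 w.length le_rfl
        rw [hN n _ (by linarith) (by linarith)] at h4
        have h5 := congrArg Prod.fst h4
        have h6 := congrArg (fun q : X H => q.2.1) h4
        have h7 := congrArg (fun q : X H => q.2.2) h4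
        simp only at h5 h6 h7
        have hμ : μ = 0 := by linarith
        rw [h3 m (by linarith), ← h5, hμ, ← h7, add_zero]
    · obtain ⟨n₁, μ, x₁, -, h3⟩ := tail_neg h w n 1
      have h4 := h3 (-((w.length : ℤ) + 1)) (by linarith)
      rw [hN n _ (by linarith) (by linarith)] at h4
      have h5 := congrArg Prod.fst h4
      have h6 := congrArg (fun q : X H => q.2.1) h4
      have h7 := congrArg (fun q : X H => q.2.2) h4
      simp only at h5 h6 h7
      have hμ : μ = 0 := by linarith
      rw [h3 m (by linarith), ← h5, hμ, ← h7, add_zero]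
  obtain ⟨n, m, x⟩ := p
  have h1 := act_mul h w n m 1 x
  rw [hM n m, one_mul] at h1
  exact h1

end perms

end Vale.Agent.P193.H870
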